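import Vale.Agent.Lib.P368.D2.ContrLayer

/-!
# P368, depth two: the trivial bound on the signed sum
-/

namespace Vale.Agent.Lib.P368

open Finset

variable {Q : Type} [Fintype Q] [DecidableEq Q]

theorem outNorm_nonneg (m : Q → Matrix Bool Bool ℂ) (L : Finset (Finset Q))
    (u : Q → Matrix Bool Bool ℂ) (y : Q → Bool) : 0 ≤ outNorm m L u y := by
  unfold outNorm normSqSum
  exact Finset.sum_nonneg (fun z _ => Complex.normSq_nonneg _)

theorem outNorm_le_one (m : Q → Matrix Bool Bool ℂ) (L : Finset (Finset Q))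
    (u : Q → Matrix Bool Bool ℂ) (hm : ∀ p, IsContr (m p))
    (hu : ∀ p, u p ∈ Matrix.unitaryGroup Bool ℂ) (y : Q → Bool) : outNorm m L u y ≤ 1 := by
  unfold outNorm
  refine le_trans (normSqSum_oneQubitLayer_le m hm _) ?_
  rw [normSqSum_czLayer, normSqSum_oneQubitLayer u hu, normSqSum_basisState]

/-- The sum of the one-qubit weights over the two values of the bit. -/
theorem b2_sum_wt (t : Bool) : ∑ b : Bool, wt t b = if t then 0 else 1 := by
  rw [Fintype.sum_bool]
  cases t <;> simp [wt]

/-- The sum of the absolute values of the one-qubit weights. -/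
theorem b2_sum_abs_wt (t : Bool) : ∑ b : Bool, |wt t b| = if t = true then 2 else 1 := by
  rw [Fintype.sum_bool]
  cases t
  · simp [wt]
  · simp [wt]
    norm_num

/-- The total signed weight of the inputs: zero as soon as one qubit is flagged. -/
theorem b2_sum_weight (τ : Q → Bool) :
    ∑ y : Q → Bool, ∏ p, wt (τ p) (y p)
      = if (univ.filter fun p => τ p = true).card = 0 then 1 else 0 := by
  rw [sum_prod_eq_prod_sum_real (fun p b => wt (τ p) b)]
  split_ifs with hk
  · apply Finset.prod_eq_one
    intro p _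
    rw [b2_sum_wt]
    have hp : τ p ≠ true := by
      intro h
      have hmem : p ∈ univ.filter fun p => τ p = true :=
        Finset.mem_filter.mpr ⟨Finset.mem_univ p, h⟩
      rw [Finset.card_eq_zero] at hk
      rw [hk] at hmem
      exact absurd hmem (Finset.notMem_empty p)
    simp [hp]
  · have hne : (univ.filter fun p => τ p = true).Nonempty := by
      rw [Finset.nonempty_iff_ne_empty]
      intro h
      exact hk (by rw [h, Finset.card_empty])
    obtain ⟨p, hp⟩ := hne
    have hp' : τ p = true := (Finset.mem_filter.mp hp).2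
    apply Finset.prod_eq_zero (Finset.mem_univ p)
    rw [b2_sum_wt, hp']
    rfl

/-- The total absolute weight of the inputs. -/
theorem b2_sum_abs_weight (τ : Q → Bool) :
    ∑ y : Q → Bool, |∏ p, wt (τ p) (y p)|
      = 2 ^ (univ.filter fun p => τ p = true).card := by
  have h1 : ∀ y : Q → Bool, |∏ p, wt (τ p) (y p)| = ∏ p, |wt (τ p) (y p)| :=
    fun y => Finset.abs_prod _ _
  rw [Finset.sum_congr rfl (fun y _ => h1 y),
    sum_prod_eq_prod_sum_real (fun p b => |wt (τ p) b|),
    Finset.prod_congr rfl (fun p _ => b2_sum_abs_wt (τ p)), Finset.prod_ite,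
    Finset.prod_const, Finset.prod_const_one, mul_one]

/-- The two-sided bound for one term. -/
theorem b2_term (W G : ℝ) (h0 : 0 ≤ G) (h1 : G ≤ 1) :
    -((|W| - W) / 2) ≤ W * G ∧ W * G ≤ (|W| + W) / 2 := by
  rcases le_total 0 W with hW | hW
  · rw [abs_of_nonneg hW]
    constructor
    · nlinarith
    · nlinarith
  · rw [abs_of_nonpos hW]
    constructor
    · nlinarith
    · nlinarith

/-- With `k` input qubits the signed sum is at most `2^(k-1)` in modulus (at most `1` when
`k = 0`). -/
theorem abs_sigSum_le_two_pow (τ : Q → Bool) (m : Q → Matrix Bool Bool ℂ)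
    (L : Finset (Finset Q)) (u : Q → Matrix Bool Bool ℂ) (hm : ∀ p, IsContr (m p))
    (hu : ∀ p, u p ∈ Matrix.unitaryGroup Bool ℂ) :
    |sigSum τ m L u| ≤ 2 ^ ((univ.filter fun p => τ p = true).card - 1) := by
  have hterm : ∀ y : Q → Bool,
      -((|∏ p, wt (τ p) (y p)| - ∏ p, wt (τ p) (y p)) / 2)
          ≤ (∏ p, wt (τ p) (y p)) * outNorm m L u y ∧
        (∏ p, wt (τ p) (y p)) * outNorm m L u y
          ≤ (|∏ p, wt (τ p) (y p)| + ∏ p, wt (τ p) (y p)) / 2 :=
    fun y => b2_term _ _ (outNorm_nonneg m L u y) (outNorm_le_one m L u hm hu y)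
  have hup : sigSum τ m L u
      ≤ ((∑ y : Q → Bool, |∏ p, wt (τ p) (y p)|) + ∑ y : Q → Bool, ∏ p, wt (τ p) (y p)) / 2 := by
    unfold sigSum
    rw [← Finset.sum_add_distrib, Finset.sum_div]
    exact Finset.sum_le_sum (fun y _ => (hterm y).2)
  have hlo : -(((∑ y : Q → Bool, |∏ p, wt (τ p) (y p)|)
      - ∑ y : Q → Bool, ∏ p, wt (τ p) (y p)) / 2) ≤ sigSum τ m L u := by
    unfold sigSum
    rw [← Finset.sum_sub_distrib, Finset.sum_div, ← Finset.sum_neg_distrib]
    exact Finset.sum_le_sum (fun y _ => (hterm y).1)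
  rw [b2_sum_abs_weight, b2_sum_weight] at hup hlo
  rw [abs_le]
  rcases Nat.eq_zero_or_pos (univ.filter fun p => τ p = true).card with hk | hk
  · rw [hk] at hup hlo ⊢
    simp only [if_true, pow_zero] at hup hlo
    simp only [Nat.zero_sub, pow_zero]
    constructor
    · linarith
    · linarith
  · obtain ⟨j, hj⟩ : ∃ j, (univ.filter fun p => τ p = true).card = j + 1 :=
      ⟨(univ.filter fun p => τ p = true).card - 1, by omega⟩
    rw [hj] at hup hlo ⊢
    have hne : ¬ (j + 1 = 0) := by omega
    simp only [if_neg hne] at hup hlo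
    rw [Nat.add_sub_cancel]
    rw [pow_succ] at hup hlo
    constructor
    · linarith
    · linarith

end Vale.Agent.Lib.P368
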