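import Vale.Agent.Lib.P368.D2.Defs

/-!
# P368, depth two: matrices of norm at most one
-/

namespace Vale.Agent.Lib.P368

open Finset

/-- Row sums of squared moduli of a unitary `2 × 2` matrix. -/
theorem unitary_row (u : Matrix Bool Bool ℂ) (hu : u ∈ Matrix.unitaryGroup Bool ℂ) (b : Bool) :
    Complex.normSq (u b false) + Complex.normSq (u b true) = 1 := by
  have h := (Matrix.mem_unitaryGroup_iff).mp hu
  have h2 := congrFun (congrFun h b) b
  rw [Matrix.mul_apply, Fintype.sum_bool] at h2
  simp only [Matrix.star_apply, Matrix.one_apply_eq] at h2
  have e1 : ((Complex.normSq (u b false) : ℝ) : ℂ) = u b false * star (u b false) := by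
    rw [← Complex.mul_conj]
    rfl
  have e2 : ((Complex.normSq (u b true) : ℝ) : ℂ) = u b true * star (u b true) := by
    rw [← Complex.mul_conj]
    rfl
  apply Complex.ofReal_injective
  push_cast
  rw [e1, e2, ← h2]
  ring

theorem isContr_one : IsContr 1 := by
  intro a b
  have e1 : (1 : Matrix Bool Bool ℂ) false false * a + (1 : Matrix Bool Bool ℂ) false true * b
      = a := by
    simp
  have e2 : (1 : Matrix Bool Bool ℂ) true false * a + (1 : Matrix Bool Bool ℂ) true true * b
      = b := by
    simp
  rw [e1, e2]

theorem isContr_of_unitary (u : Matrix Bool Bool ℂ) (hu : u ∈ Matrix.unitaryGroup Bool ℂ) :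
    IsContr u := by
  intro a b
  apply le_of_eq
  have h := (Matrix.mem_unitaryGroup_iff').mp hu
  have h00 := congrFun (congrFun h false) false
  have h01 := congrFun (congrFun h false) true
  have h10 := congrFun (congrFun h true) false
  have h11 := congrFun (congrFun h true) true
  rw [Matrix.mul_apply, Fintype.sum_bool] at h00 h01 h10 h11
  simp only [Matrix.star_apply, Matrix.one_apply_eq] at h00 h11
  rw [Matrix.one_apply_ne (by decide)] at h01 h10
  simp only [Matrix.star_apply] at h01 h10
  have c00 : (starRingEnd ℂ) (u true false) * u true false
      + (starRingEnd ℂ) (u false false) * u false false = 1 := h00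
  have c01 : (starRingEnd ℂ) (u true false) * u true true
      + (starRingEnd ℂ) (u false false) * u false true = 0 := h01
  have c10 : (starRingEnd ℂ) (u true true) * u true false
      + (starRingEnd ℂ) (u false true) * u false false = 0 := h10
  have c11 : (starRingEnd ℂ) (u true true) * u true true
      + (starRingEnd ℂ) (u false true) * u false true = 1 := h11
  apply Complex.ofReal_injective
  push_cast
  simp only [Complex.normSq_eq_conj_mul_self, map_add, map_mul]
  linear_combination ((starRingEnd ℂ) a * a) * c00 + ((starRingEnd ℂ) a * b) * c01
    + ((starRingEnd ℂ) b * a) * c10 + ((starRingEnd ℂ) b * b) * c11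

theorem isContr_mul (a b : Matrix Bool Bool ℂ) (ha : IsContr a) (hb : IsContr b) :
    IsContr (a * b) := by
  intro x y
  have e1 : (a * b) false false * x + (a * b) false true * y
      = a false false * (b false false * x + b false true * y)
        + a false true * (b true false * x + b true true * y) := by
    simp only [Matrix.mul_apply, Fintype.sum_bool]
    ring
  have e2 : (a * b) true false * x + (a * b) true true * y
      = a true false * (b false false * x + b false true * y)
        + a true true * (b true false * x + b true true * y) := by
    simp only [Matrix.mul_apply, Fintype.sum_bool]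
    ring
  rw [e1, e2]
  exact le_trans (ha _ _) (hb x y)

theorem isContr_projOne : IsContr projOne := by
  intro a b
  have e1 : projOne false false * a + projOne false true * b = 0 := by simp [projOne]
  have e2 : projOne true false * a + projOne true true * b = b := by simp [projOne]
  rw [e1, e2, map_zero]
  linarith [Complex.normSq_nonneg a]

/-- The Cauchy-Schwarz inequality in the plane. -/
theorem ct_cs (r0 r1 a b : ℂ) : Complex.normSq (r0 * a + r1 * b)
    ≤ (Complex.normSq r0 + Complex.normSq r1) * (Complex.normSq a + Complex.normSq b) := by
  have h : Complex.normSq (r0 * a + r1 * b)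
      + Complex.normSq (r0 * (starRingEnd ℂ) b - r1 * (starRingEnd ℂ) a)
      = (Complex.normSq r0 + Complex.normSq r1) * (Complex.normSq a + Complex.normSq b) := by
    simp only [Complex.normSq_apply, Complex.mul_re, Complex.mul_im, Complex.add_re,
      Complex.add_im, Complex.sub_re, Complex.sub_im, Complex.conj_re, Complex.conj_im]
    ring
  linarith [Complex.normSq_nonneg (r0 * (starRingEnd ℂ) b - r1 * (starRingEnd ℂ) a)]

theorem isContr_rowMat (b : Bool) (r : Bool → ℂ)
    (hr : Complex.normSq (r false) + Complex.normSq (r true) ≤ 1) : IsContr (rowMat b r) := by
  intro x y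
  have hcs := ct_cs (r false) (r true) x y
  have hxy : 0 ≤ Complex.normSq x + Complex.normSq y :=
    add_nonneg (Complex.normSq_nonneg _) (Complex.normSq_nonneg _)
  have h2 : (Complex.normSq (r false) + Complex.normSq (r true))
      * (Complex.normSq x + Complex.normSq y) ≤ Complex.normSq x + Complex.normSq y :=
    mul_le_of_le_one_left hxy hr
  cases b
  · have e1 : rowMat false r false false * x + rowMat false r false true * y
        = r false * x + r true * y := by simp [rowMat]
    have e2 : rowMat false r true false * x + rowMat false r true true * y = 0 := by
      simp [rowMat]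
    rw [e1, e2, map_zero, add_zero]
    linarith
  · have e1 : rowMat true r false false * x + rowMat true r false true * y = 0 := by
      simp [rowMat]
    have e2 : rowMat true r true false * x + rowMat true r true true * y
        = r false * x + r true * y := by simp [rowMat]
    rw [e1, e2, map_zero, zero_add]
    linarith

end Vale.Agent.Lib.P368
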