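import Vale.Agent.Lib.P368.D2.Defs

/-!
# P368, depth two: a layer of one-qubit matrices of norm at most one
-/

namespace Vale.Agent.Lib.P368

open Finset

variable {Q : Type} [Fintype Q] [DecidableEq Q]

/-- The layer with a single gate `g` on qubit `q` mixes the two basis states that differ from
`z` at most at `q`. -/
theorem cl_single_apply (q : Q) (g : Matrix Bool Bool ℂ) (ψ : StateVec Q) (z : Q → Bool) :
    oneQubitLayer (singleGate q g) ψ z
      = g (z q) false * ψ (Function.update z q false)
        + g (z q) true * ψ (Function.update z q true) := by
  rw [oneQubitLayer_apply]
  have hprod : ∀ w : Q → Bool, (∏ p, singleGate q g p (z p) (w p))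
      = if w = Function.update z q (w q) then g (z q) (w q) else 0 := by
    intro w
    by_cases hw : w = Function.update z q (w q)
    · rw [if_pos hw, Fintype.prod_eq_single q]
      · simp [singleGate]
      · intro p hp
        have hwp : w p = z p := by
          have h := congrFun hw p
          rwa [Function.update_of_ne hp] at h
        simp only [singleGate, if_neg hp]
        rw [hwp, Matrix.one_apply_eq]
    · rw [if_neg hw]
      have hex : ∃ p, p ≠ q ∧ w p ≠ z p := by
        by_contra hcon
        push Not at hcon
        apply hw
        funext p
        by_cases hp : p = q
        · subst hp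
          simp
        · rw [Function.update_of_ne hp]
          exact hcon p hp
      obtain ⟨p, hp, hwp⟩ := hex
      apply Finset.prod_eq_zero (Finset.mem_univ p)
      simp only [singleGate, if_neg hp]
      rw [Matrix.one_apply_ne (Ne.symm hwp)]
  simp only [hprod]
  have hne : Function.update z q false ≠ Function.update z q true := by
    intro h
    have h' := congrFun h q
    simp at h'
  rw [Finset.sum_eq_add_of_mem (Function.update z q false) (Function.update z q true)
    (Finset.mem_univ _) (Finset.mem_univ _) hne]
  · simp
  · intro w _ hw
    rw [if_neg, zero_mul]
    intro h
    cases hwq : w q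
    · rw [hwq] at h
      exact hw.1 h
    · rw [hwq] at h
      exact hw.2 h

/-- One gate of norm at most one on a single qubit does not increase the squared norm. -/
theorem cl_single_le (q : Q) (g : Matrix Bool Bool ℂ) (hg : IsContr g) (ψ : StateVec Q) :
    normSqSum (oneQubitLayer (singleGate q g) ψ) ≤ normSqSum ψ := by
  have hflip : Function.Involutive (fun z : Q → Bool => Function.update z q (!z q)) := by
    intro z
    simp
  have hpair : ∀ H : (Q → Bool) → ℝ,
      ∑ z, (H (Function.update z q false) + H (Function.update z q true)) = 2 * ∑ z, H z := by
    intro H
    have h1 : ∀ z : Q → Bool, H (Function.update z q false) + H (Function.update z q true)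
        = H z + H (Function.update z q (!z q)) := by
      intro z
      cases hz : z q
      · have e : Function.update z q false = z := by
          rw [← hz, Function.update_eq_self]
        rw [e]
        simp
      · have e : Function.update z q true = z := by
          rw [← hz, Function.update_eq_self]
        rw [e]
        simp [add_comm]
    rw [Finset.sum_congr rfl (fun z _ => h1 z), Finset.sum_add_distrib]
    have h2 : ∑ z, H (Function.update z q (!z q)) = ∑ z, H z :=
      Equiv.sum_comp (Function.Involutive.toPerm _ hflip) H
    rw [h2]
    ring
  have hterm : ∀ z : Q → Bool,
      Complex.normSq (oneQubitLayer (singleGate q g) ψ (Function.update z q false))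
        + Complex.normSq (oneQubitLayer (singleGate q g) ψ (Function.update z q true))
      ≤ Complex.normSq (ψ (Function.update z q false))
        + Complex.normSq (ψ (Function.update z q true)) := by
    intro z
    rw [cl_single_apply, cl_single_apply]
    simp only [Function.update_self, Function.update_idem]
    exact hg _ _
  have h2 : 2 * normSqSum (oneQubitLayer (singleGate q g) ψ) ≤ 2 * normSqSum ψ := by
    unfold normSqSum
    rw [← hpair (fun z => Complex.normSq (oneQubitLayer (singleGate q g) ψ z)),
      ← hpair (fun z => Complex.normSq (ψ z))]
    exact Finset.sum_le_sum (fun z _ => hterm z)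
  linarith

/-- A layer of one-qubit matrices of norm at most one does not increase the squared norm. -/
theorem normSqSum_oneQubitLayer_le (m : Q → Matrix Bool Bool ℂ) (hm : ∀ p, IsContr (m p))
    (ψ : StateVec Q) : normSqSum (oneQubitLayer m ψ) ≤ normSqSum ψ := by
  have key : ∀ (S : Finset Q) (φ : StateVec Q),
      normSqSum (oneQubitLayer (fun p => if p ∈ S then m p else 1) φ) ≤ normSqSum φ := by
    intro S
    induction S using Finset.induction_on with
    | empty =>
      intro φ
      have h1 : (fun p : Q => if p ∈ (∅ : Finset Q) then m p else (1 : Matrix Bool Bool ℂ))
          = fun _ => 1 := by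
        funext p
        simp
      rw [h1, oneQubitLayer_one]
    | insert a S ha ih =>
      intro φ
      have hfac : (fun p : Q => if p ∈ insert a S then m p else (1 : Matrix Bool Bool ℂ))
          = fun p => singleGate a (m a) p * (if p ∈ S then m p else 1) := by
        funext p
        by_cases hp : p = a
        · subst hp
          simp [singleGate, ha]
        · by_cases hpS : p ∈ S
          · simp [singleGate, hp, hpS]
          · simp [singleGate, hp, hpS]
      rw [hfac, ← oneQubitLayer_comp]
      exact (cl_single_le a (m a) (hm a) _).trans (ih φ)
  have h := key Finset.univ ψ
  simpa using h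

end Vale.Agent.Lib.P368
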