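import Vale.Agent.Lib.P368.D2.Defs

/-!
# P368, depth two: the signed sum as a four-fold expansion
-/

namespace Vale.Agent.Lib.P368

open Finset

variable {Q : Type} [Fintype Q] [DecidableEq Q]

/-- Four bit strings are the same as a string of four-bit configurations. -/
def ex_equiv (Q : Type) :
    ((Q → Bool) × (Q → Bool) × (Q → Bool) × (Q → Bool)) ≃ (Q → Cfg) where
  toFun t := fun p => (t.1 p, t.2.1 p, t.2.2.1 p, t.2.2.2 p)
  invFun ω := (fun p => (ω p).1, fun p => (ω p).2.1, fun p => (ω p).2.2.1, fun p => (ω p).2.2.2)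
  left_inv := fun _ => rfl
  right_inv := fun _ => rfl

/-- The term of the four-fold expansion at the bit strings `y`, `z`, `w`, `w'`. -/
noncomputable def ex_term (τ : Q → Bool) (m : Q → Matrix Bool Bool ℂ) (L : Finset (Finset Q))
    (u : Q → Matrix Bool Bool ℂ) (y z w w' : Q → Bool) : ℂ :=
  (∏ p, kap (τ p) (m p) (u p) (y p, z p, w p, w' p)) * ∏ A ∈ L, (czSign A w * czSign A w')

theorem ex_conj_czSign (A : Finset Q) (w : Q → Bool) :
    (starRingEnd ℂ) (czSign A w) = czSign A w := by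
  unfold czSign
  split_ifs <;> simp

omit [DecidableEq Q] in
theorem ex_prod_kap (τ : Q → Bool) (m u : Q → Matrix Bool Bool ℂ) (y z w w' : Q → Bool) :
    ∏ p, kap (τ p) (m p) (u p) (y p, z p, w p, w' p) =
      (∏ p, ((wt (τ p) (y p) : ℝ) : ℂ)) *
        ((∏ p, m p (z p) (w p)) * ∏ p, (starRingEnd ℂ) (m p (z p) (w' p))) *
        ((∏ p, u p (w p) (y p)) * ∏ p, (starRingEnd ℂ) (u p (w' p) (y p))) := by
  simp only [kap, Finset.prod_mul_distrib]

/-- The amplitude of the basis input `y` at the output `z`. -/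
theorem ex_amp (m : Q → Matrix Bool Bool ℂ) (L : Finset (Finset Q))
    (u : Q → Matrix Bool Bool ℂ) (y z : Q → Bool) :
    oneQubitLayer m (czLayer L (oneQubitLayer u (basisState y))) z =
      ∑ w : Q → Bool, (∏ p, m p (z p) (w p)) *
        ((∏ A ∈ L, czSign A w) * ∏ p, u p (w p) (y p)) := by
  rw [oneQubitLayer_apply]
  refine Finset.sum_congr rfl (fun w _ => ?_)
  show (∏ p, m p (z p) (w p)) *
    ((∏ S ∈ L, czSign S w) * oneQubitLayer u (basisState y) w) = _
  rw [oneQubitLayer_basisState]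

theorem ex_match (τ : Q → Bool) (m : Q → Matrix Bool Bool ℂ) (L : Finset (Finset Q))
    (u : Q → Matrix Bool Bool ℂ) (y z w w' : Q → Bool) :
    ((∏ p, wt (τ p) (y p) : ℝ) : ℂ) *
      ((starRingEnd ℂ) ((∏ p, m p (z p) (w' p)) *
          ((∏ A ∈ L, czSign A w') * ∏ p, u p (w' p) (y p))) *
        ((∏ p, m p (z p) (w p)) * ((∏ A ∈ L, czSign A w) * ∏ p, u p (w p) (y p)))) =
      ex_term τ m L u y z w w' := by
  unfold ex_term
  rw [ex_prod_kap, Finset.prod_mul_distrib, Complex.ofReal_prod]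
  simp only [map_mul, map_prod, ex_conj_czSign]
  ring

/-- Expanding the squared norm and collecting the sums over `y`, `z`, `w`, `w'`. -/
theorem sigSum_eq_S4 (τ : Q → Bool) (m : Q → Matrix Bool Bool ℂ) (L : Finset (Finset Q))
    (u : Q → Matrix Bool Bool ℂ) :
    ((sigSum τ m L u : ℝ) : ℂ) = S4 (fun p => kap (τ p) (m p) (u p)) L := by
  have hR : S4 (fun p => kap (τ p) (m p) (u p)) L =
      ∑ y : Q → Bool, ∑ z : Q → Bool, ∑ w : Q → Bool, ∑ w' : Q → Bool,
        ex_term τ m L u y z w w' := by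
    unfold S4
    rw [← Equiv.sum_comp (ex_equiv Q), Fintype.sum_prod_type]
    refine Fintype.sum_congr _ _ (fun y => ?_)
    rw [Fintype.sum_prod_type]
    refine Fintype.sum_congr _ _ (fun z => ?_)
    rw [Fintype.sum_prod_type]
    rfl
  have hL : ((sigSum τ m L u : ℝ) : ℂ) =
      ∑ y : Q → Bool, ∑ z : Q → Bool, ∑ w : Q → Bool, ∑ w' : Q → Bool,
        ex_term τ m L u y z w w' := by
    unfold sigSum outNorm
    rw [Complex.ofReal_sum]
    refine Fintype.sum_congr _ _ (fun y => ?_)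
    rw [Complex.ofReal_mul, normSqSum_cast, Finset.mul_sum]
    refine Fintype.sum_congr _ _ (fun z => ?_)
    rw [ex_amp, map_sum, Finset.sum_mul_sum, Finset.sum_comm, Finset.mul_sum]
    refine Fintype.sum_congr _ _ (fun w => ?_)
    rw [Finset.mul_sum]
    refine Fintype.sum_congr _ _ (fun w' => ?_)
    exact ex_match τ m L u y z w w'
  rw [hL, hR]

end Vale.Agent.Lib.P368
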