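import Vale.Agent.Lib.P368.D2.Defs

/-!
# P368, depth two: one-qubit estimates, first part
-/

namespace Vale.Agent.Lib.P368

open Finset

/-- The second row of a unitary matrix of size two has norm one. -/
theorem sg_row_true (u : Matrix Bool Bool ℂ) (hu : u ∈ Matrix.unitaryGroup Bool ℂ) :
    Complex.normSq (u true false) + Complex.normSq (u true true) = 1 := by
  have h := Matrix.mem_unitaryGroup_iff.mp hu
  have h11 := congrFun (congrFun h true) true
  simp only [Matrix.mul_apply, Matrix.star_apply, Fintype.sum_bool, Matrix.one_apply_eq] at h11
  simp only [RCLike.star_def] at h11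
  apply Complex.ofReal_injective
  push_cast
  simp only [Complex.normSq_eq_conj_mul_self]
  linear_combination h11

/-- Each column of a unitary matrix of size two has norm one. -/
theorem sg_col (u : Matrix Bool Bool ℂ) (hu : u ∈ Matrix.unitaryGroup Bool ℂ) (y : Bool) :
    Complex.normSq (u false y) + Complex.normSq (u true y) = 1 := by
  have h := unitary_col u hu y
  rw [Fintype.sum_bool] at h
  linarith

/-- The squared norm of the image of column `y` of `u` under `m`. -/
noncomputable def sg_N (m u : Matrix Bool Bool ℂ) (y : Bool) : ℝ :=
  Complex.normSq (m false false * u false y + m false true * u true y) +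
    Complex.normSq (m true false * u false y + m true true * u true y)

theorem sg_N_nonneg (m u : Matrix Bool Bool ℂ) (y : Bool) : 0 ≤ sg_N m u y :=
  add_nonneg (Complex.normSq_nonneg _) (Complex.normSq_nonneg _)

theorem sg_N_le (m u : Matrix Bool Bool ℂ) (hm : IsContr m)
    (hu : u ∈ Matrix.unitaryGroup Bool ℂ) (y : Bool) : sg_N m u y ≤ 1 := by
  have h := hm (u false y) (u true y)
  rw [sg_col u hu y] at h
  exact h

/-- The full sum of the one-qubit weight is a signed sum of two squared norms. -/
theorem sg_K0_eq (t : Bool) (m u : Matrix Bool Bool ℂ) :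
    K0 (kap t m u) = ((wt t false * sg_N m u false + wt t true * sg_N m u true : ℝ) : ℂ) := by
  simp only [K0, kap, sg_N, Fintype.sum_prod_type, Fintype.sum_bool]
  push_cast
  simp only [Complex.normSq_eq_conj_mul_self, map_add, map_mul]
  ring

theorem norm_K0_kap_le (t : Bool) (m u : Matrix Bool Bool ℂ) (hm : IsContr m)
    (hu : u ∈ Matrix.unitaryGroup Bool ℂ) : ‖K0 (kap t m u)‖ ≤ 1 := by
  rw [sg_K0_eq, Complex.norm_real, Real.norm_eq_abs, abs_le]
  have h0 := sg_N_nonneg m u false
  have h1 := sg_N_nonneg m u true
  have h0' := sg_N_le m u hm hu false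
  have h1' := sg_N_le m u hm hu true
  cases t
  · simp only [wt, Bool.false_eq_true, if_false, if_true]
    constructor <;> linarith
  · simp only [wt, Bool.false_eq_true, if_false, if_true]
    constructor <;> linarith

/-- The sum over the configurations with `w = w' = 1` factors. -/
theorem sg_K3_eq (t : Bool) (m u : Matrix Bool Bool ℂ) :
    K3 (kap t m u) =
      ((Complex.normSq (m false true) + Complex.normSq (m true true) : ℝ) : ℂ) *
        ((wt t false * Complex.normSq (u true false) +
          wt t true * Complex.normSq (u true true) : ℝ) : ℂ) := by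
  simp only [K3, kap, Fintype.sum_prod_type, Fintype.sum_bool]
  simp only [Bool.false_eq_true, false_and, and_false, and_self, if_false, if_true]
  push_cast
  simp only [Complex.normSq_eq_conj_mul_self]
  ring

theorem norm_K3_kap_le (t : Bool) (m u : Matrix Bool Bool ℂ) (hm : IsContr m)
    (hu : u ∈ Matrix.unitaryGroup Bool ℂ) : ‖K3 (kap t m u)‖ ≤ 1 := by
  rw [sg_K3_eq, norm_mul, Complex.norm_real, Complex.norm_real, Real.norm_eq_abs,
    Real.norm_eq_abs]
  have hA0 : 0 ≤ Complex.normSq (m false true) + Complex.normSq (m true true) :=
    add_nonneg (Complex.normSq_nonneg _) (Complex.normSq_nonneg _)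
  have hA1 : Complex.normSq (m false true) + Complex.normSq (m true true) ≤ 1 := by
    have h := hm 0 1
    simpa using h
  have hr := sg_row_true u hu
  have hu0 := Complex.normSq_nonneg (u true false)
  have hu1 := Complex.normSq_nonneg (u true true)
  have hB : |wt t false * Complex.normSq (u true false) +
      wt t true * Complex.normSq (u true true)| ≤ 1 := by
    rw [abs_le]
    cases t
    · simp only [wt, Bool.false_eq_true, if_false, if_true]
      constructor <;> linarith
    · simp only [wt, Bool.false_eq_true, if_false, if_true]
      constructor <;> linarith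
  rw [abs_of_nonneg hA0]
  exact mul_le_one₀ hA1 (abs_nonneg _) hB

/-- A qubit that is not an input and carries identity gates contributes `1`. -/
theorem K0_kap_triv : K0 (kap false 1 1) = 1 := by
  simp [K0, kap, wt, Fintype.sum_prod_type, Matrix.one_apply]

end Vale.Agent.Lib.P368
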