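import Vale.Agent.Lib.P368.D2.Defs

/-!
# P368, depth two: one-qubit estimates, second part
-/

namespace Vale.Agent.Lib.P368

open Finset

/-- The Cauchy-Schwarz inequality in the plane over the complex numbers. -/
theorem sb_cs (x1 x2 y1 y2 : ℂ) :
    Complex.normSq (x1 * (starRingEnd ℂ) y1 + x2 * (starRingEnd ℂ) y2) ≤
      (Complex.normSq x1 + Complex.normSq x2) * (Complex.normSq y1 + Complex.normSq y2) := by
  have h : Complex.normSq (x1 * (starRingEnd ℂ) y1 + x2 * (starRingEnd ℂ) y2) +
      Complex.normSq (x1 * y2 - x2 * y1) =
      (Complex.normSq x1 + Complex.normSq x2) * (Complex.normSq y1 + Complex.normSq y2) := by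
    simp only [Complex.normSq_apply, Complex.mul_re, Complex.mul_im, Complex.add_re,
      Complex.add_im, Complex.sub_re, Complex.sub_im, Complex.conj_re, Complex.conj_im]
    ring
  have h2 := Complex.normSq_nonneg (x1 * y2 - x2 * y1)
  linarith

/-- A unitary matrix of size two preserves the Euclidean norm. -/
theorem sb_unitary_norm (u : Matrix Bool Bool ℂ) (hu : u ∈ Matrix.unitaryGroup Bool ℂ)
    (x y : ℂ) :
    Complex.normSq (u false false * x + u false true * y) +
      Complex.normSq (u true false * x + u true true * y) =
      Complex.normSq x + Complex.normSq y := by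
  have h := Matrix.mem_unitaryGroup_iff'.mp hu
  have h00 := congrFun (congrFun h false) false
  have h11 := congrFun (congrFun h true) true
  have h01 := congrFun (congrFun h false) true
  have h10 := congrFun (congrFun h true) false
  simp only [Matrix.mul_apply, Matrix.star_apply, Fintype.sum_bool, Matrix.one_apply_eq] at h00 h11
  simp only [Matrix.mul_apply, Matrix.star_apply, Fintype.sum_bool, ne_eq,
    not_false_eq_true, Matrix.one_apply_ne, Bool.false_eq_true, Bool.true_eq_false] at h01 h10
  simp only [RCLike.star_def] at h00 h11 h01 h10
  apply Complex.ofReal_injective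
  push_cast
  simp only [Complex.normSq_eq_conj_mul_self, map_add, map_mul]
  linear_combination ((starRingEnd ℂ) x * x) * h00 + ((starRingEnd ℂ) y * y) * h11 +
    ((starRingEnd ℂ) x * y) * h01 + ((starRingEnd ℂ) y * x) * h10

/-- The second row of a unitary matrix of size two has norm one. -/
theorem sb_row_true (u : Matrix Bool Bool ℂ) (hu : u ∈ Matrix.unitaryGroup Bool ℂ) :
    Complex.normSq (u true false) + Complex.normSq (u true true) = 1 := by
  have h := Matrix.mem_unitaryGroup_iff.mp hu
  have h11 := congrFun (congrFun h true) true
  simp only [Matrix.mul_apply, Matrix.star_apply, Fintype.sum_bool, Matrix.one_apply_eq] at h11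
  simp only [RCLike.star_def] at h11
  apply Complex.ofReal_injective
  push_cast
  simp only [Complex.normSq_eq_conj_mul_self]
  linear_combination h11

/-- The square of an input weight is at most one. -/
theorem sb_wt_sq (t b : Bool) : wt t b * wt t b ≤ 1 := by
  cases t <;> cases b <;> simp [wt]

/-- Expansion of `K1 (kap t m u)` as an inner product. -/
theorem sb_K1_eq (t : Bool) (m u : Matrix Bool Bool ℂ) :
    K1 (kap t m u) =
      m false true * (starRingEnd ℂ) (m false false *
          (u false false * (((wt t false : ℝ) : ℂ) * (starRingEnd ℂ) (u true false)) +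
            u false true * (((wt t true : ℝ) : ℂ) * (starRingEnd ℂ) (u true true))) +
          m false true *
          (u true false * (((wt t false : ℝ) : ℂ) * (starRingEnd ℂ) (u true false)) +
            u true true * (((wt t true : ℝ) : ℂ) * (starRingEnd ℂ) (u true true)))) +
      m true true * (starRingEnd ℂ) (m true false *
          (u false false * (((wt t false : ℝ) : ℂ) * (starRingEnd ℂ) (u true false)) +
            u false true * (((wt t true : ℝ) : ℂ) * (starRingEnd ℂ) (u true true))) +
          m true true *
          (u true false * (((wt t false : ℝ) : ℂ) * (starRingEnd ℂ) (u true false)) +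
            u true true * (((wt t true : ℝ) : ℂ) * (starRingEnd ℂ) (u true true)))) := by
  simp only [K1, kap, Fintype.sum_prod_type, Fintype.sum_bool]
  simp only [Bool.false_eq_true, if_false, if_true, map_add, map_mul, Complex.conj_conj,
    Complex.conj_ofReal]
  ring

/-- `K2 (kap t m u)` is the conjugate of `K1 (kap t m u)`. -/
theorem sb_K2_eq (t : Bool) (m u : Matrix Bool Bool ℂ) :
    K2 (kap t m u) = (starRingEnd ℂ) (K1 (kap t m u)) := by
  simp only [K1, K2, kap, Fintype.sum_prod_type, Fintype.sum_bool]
  simp only [Bool.false_eq_true, if_false, if_true, map_add, map_mul, map_zero,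
    Complex.conj_conj, Complex.conj_ofReal]
  ring

theorem norm_K1_kap_le (t : Bool) (m u : Matrix Bool Bool ℂ) (hm : IsContr m)
    (hu : u ∈ Matrix.unitaryGroup Bool ℂ) : ‖K1 (kap t m u)‖ ≤ 1 := by
  have hrow := sb_row_true u hu
  have hv : Complex.normSq (((wt t false : ℝ) : ℂ) * (starRingEnd ℂ) (u true false)) +
      Complex.normSq (((wt t true : ℝ) : ℂ) * (starRingEnd ℂ) (u true true)) ≤ 1 := by
    rw [Complex.normSq_mul, Complex.normSq_mul, Complex.normSq_conj, Complex.normSq_conj,
      Complex.normSq_ofReal, Complex.normSq_ofReal]
    have h1 := sb_wt_sq t false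
    have h2 := sb_wt_sq t true
    have h3 := Complex.normSq_nonneg (u true false)
    have h4 := Complex.normSq_nonneg (u true true)
    nlinarith
  have hs := sb_unitary_norm u hu (((wt t false : ℝ) : ℂ) * (starRingEnd ℂ) (u true false))
    (((wt t true : ℝ) : ℂ) * (starRingEnd ℂ) (u true true))
  have hm1 := hm 0 1
  simp only [mul_zero, mul_one, zero_add, map_zero, map_one] at hm1
  have hm2 := hm
    (u false false * (((wt t false : ℝ) : ℂ) * (starRingEnd ℂ) (u true false)) +
      u false true * (((wt t true : ℝ) : ℂ) * (starRingEnd ℂ) (u true true)))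
    (u true false * (((wt t false : ℝ) : ℂ) * (starRingEnd ℂ) (u true false)) +
      u true true * (((wt t true : ℝ) : ℂ) * (starRingEnd ℂ) (u true true)))
  have hcs := sb_cs (m false true) (m true true)
    (m false false *
          (u false false * (((wt t false : ℝ) : ℂ) * (starRingEnd ℂ) (u true false)) +
            u false true * (((wt t true : ℝ) : ℂ) * (starRingEnd ℂ) (u true true))) +
          m false true *
          (u true false * (((wt t false : ℝ) : ℂ) * (starRingEnd ℂ) (u true false)) +
            u true true * (((wt t true : ℝ) : ℂ) * (starRingEnd ℂ) (u true true))))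
    (m true false *
          (u false false * (((wt t false : ℝ) : ℂ) * (starRingEnd ℂ) (u true false)) +
            u false true * (((wt t true : ℝ) : ℂ) * (starRingEnd ℂ) (u true true))) +
          m true true *
          (u true false * (((wt t false : ℝ) : ℂ) * (starRingEnd ℂ) (u true false)) +
            u true true * (((wt t true : ℝ) : ℂ) * (starRingEnd ℂ) (u true true))))
  rw [← sb_K1_eq t m u] at hcs
  have hx0 := Complex.normSq_nonneg (m false true)
  have hx1 := Complex.normSq_nonneg (m true true)
  have hy0 := Complex.normSq_nonneg (m false false *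
          (u false false * (((wt t false : ℝ) : ℂ) * (starRingEnd ℂ) (u true false)) +
            u false true * (((wt t true : ℝ) : ℂ) * (starRingEnd ℂ) (u true true))) +
          m false true *
          (u true false * (((wt t false : ℝ) : ℂ) * (starRingEnd ℂ) (u true false)) +
            u true true * (((wt t true : ℝ) : ℂ) * (starRingEnd ℂ) (u true true))))
  have hy1 := Complex.normSq_nonneg (m true false *
          (u false false * (((wt t false : ℝ) : ℂ) * (starRingEnd ℂ) (u true false)) +
            u false true * (((wt t true : ℝ) : ℂ) * (starRingEnd ℂ) (u true true))) +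
          m true true *
          (u true false * (((wt t false : ℝ) : ℂ) * (starRingEnd ℂ) (u true false)) +
            u true true * (((wt t true : ℝ) : ℂ) * (starRingEnd ℂ) (u true true))))
  have hsq : ‖K1 (kap t m u)‖ ^ 2 ≤ 1 := by
    rw [← Complex.normSq_eq_norm_sq]
    nlinarith
  exact (sq_le_one_iff₀ (norm_nonneg _)).mp hsq

theorem norm_K2_kap_le (t : Bool) (m u : Matrix Bool Bool ℂ) (hm : IsContr m)
    (hu : u ∈ Matrix.unitaryGroup Bool ℂ) : ‖K2 (kap t m u)‖ ≤ 1 := by
  rw [sb_K2_eq, RCLike.norm_conj]
  exact norm_K1_kap_le t m u hm hu

end Vale.Agent.Lib.P368
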