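import Vale.Agent.Lib.P368.Main

/-!
# P368, entangling depth two: definitions

Conventions used in the comments: `u` is the first layer of one-qubit gates, `L` the first layer of
multi-controlled `Z` gates, and `m` a layer of one-qubit matrices of norm at most one applied
after it.  `outNorm m L u y` is the squared norm of the resulting vector for the basis input `y`,
and `sigSum τ m L u` is its signed sum over the inputs located on the qubits flagged by `τ`.
-/

namespace Vale.Agent.Lib.P368

open Finset

/-- One-qubit configuration in the four-fold expansion: the four bits `y`, `z`, `w`, `w'`. -/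
abbrev Cfg : Type := Bool × Bool × Bool × Bool

/-- Input weight of one qubit: the sign of `b` for an input qubit (`t = true`), the indicator of
`b = false` for an ancilla (`t = false`). -/
def wt (t b : Bool) : ℝ := if t then (if b then -1 else 1) else (if b then 0 else 1)

/-- A `2 × 2` matrix that does not increase the Euclidean norm of a vector. -/
def IsContr (m : Matrix Bool Bool ℂ) : Prop :=
  ∀ a b : ℂ, Complex.normSq (m false false * a + m false true * b) +
    Complex.normSq (m true false * a + m true true * b) ≤ Complex.normSq a + Complex.normSq b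

/-- The matrix whose row `b` is `r` and whose other row is zero. -/
def rowMat (b : Bool) (r : Bool → ℂ) : Matrix Bool Bool ℂ := fun c c' => if c = b then r c' else 0

/-- The projector onto the basis state `1`. -/
def projOne : Matrix Bool Bool ℂ := fun c c' => if c = true ∧ c' = true then 1 else 0

/-- The weight of one qubit in the four-fold expansion, at the configuration
`c` with bits `y`, `z`, `w`, `w'`: `wt t y * m z w * conj (m z w') * u w y * conj (u w' y)`. -/
noncomputable def kap (t : Bool) (m u : Matrix Bool Bool ℂ) (c : Cfg) : ℂ :=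
  ((wt t c.1 : ℝ) : ℂ) * (m c.2.1 c.2.2.1 * (starRingEnd ℂ) (m c.2.1 c.2.2.2)) *
    (u c.2.2.1 c.1 * (starRingEnd ℂ) (u c.2.2.2 c.1))

/-- Sum of a one-qubit weight over all configurations. -/
def K0 (k : Cfg → ℂ) : ℂ := ∑ c : Cfg, k c

/-- Sum over the configurations with `w = 1`. -/
def K1 (k : Cfg → ℂ) : ℂ := ∑ c : Cfg, if c.2.2.1 = true then k c else 0

/-- Sum over the configurations with `w' = 1`. -/
def K2 (k : Cfg → ℂ) : ℂ := ∑ c : Cfg, if c.2.2.2 = true then k c else 0

/-- Sum over the configurations with `w = w' = 1`. -/
def K3 (k : Cfg → ℂ) : ℂ := ∑ c : Cfg, if c.2.2.1 = true ∧ c.2.2.2 = true then k c else 0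

section

variable {Q : Type} [Fintype Q] [DecidableEq Q]

/-- Squared norm of the vector obtained from the basis state `y` by the one-qubit layer `u`,
the layer `L` of multi-controlled `Z` gates and the one-qubit layer `m`. -/
noncomputable def outNorm (m : Q → Matrix Bool Bool ℂ) (L : Finset (Finset Q))
    (u : Q → Matrix Bool Bool ℂ) (y : Q → Bool) : ℝ :=
  normSqSum (oneQubitLayer m (czLayer L (oneQubitLayer u (basisState y))))

/-- Signed sum of `outNorm` over the inputs located on the qubits flagged by `τ`
(the other qubits start in `0`). -/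
noncomputable def sigSum (τ : Q → Bool) (m : Q → Matrix Bool Bool ℂ) (L : Finset (Finset Q))
    (u : Q → Matrix Bool Bool ℂ) : ℝ :=
  ∑ y : Q → Bool, (∏ p, wt (τ p) (y p)) * outNorm m L u y

/-- The four-fold expansion: a sum over configurations `ω p = (y p, z p, w p, w' p)`. -/
noncomputable def S4 (κ : Q → Cfg → ℂ) (L : Finset (Finset Q)) : ℂ :=
  ∑ ω : Q → Cfg, (∏ p, κ p (ω p)) *
    ∏ A ∈ L, (czSign A (fun p => (ω p).2.2.1) * czSign A (fun p => (ω p).2.2.2))

/-- The contribution of one gate `A` to the four-fold expansion. -/
noncomputable def gateSum (κ : Q → Cfg → ℂ) (A : Finset Q) : ℂ :=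
  ∏ p ∈ A, K0 (κ p) - 2 * ∏ p ∈ A, K1 (κ p) - 2 * ∏ p ∈ A, K2 (κ p) + 4 * ∏ p ∈ A, K3 (κ p)

/-- The flag of the input qubits. -/
def inTau {n : ℕ} (inp : Fin n ↪ Q) (p : Q) : Bool := decide (∃ j, inp j = p)

end

end Vale.Agent.Lib.P368
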