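import Vale.Agent.Lib.P368.D2.Indep

/-!
# P368, depth two: the four-fold expansion factorises over the gates
-/

namespace Vale.Agent.Lib.P368

open Finset

variable {Q : Type} [Fintype Q] [DecidableEq Q]

/-- Indicator of the bit `w` of a configuration. -/
def fa_i1 (c : Cfg) : ℂ := if c.2.2.1 = true then 1 else 0

/-- Indicator of the bit `w'` of a configuration. -/
def fa_i2 (c : Cfg) : ℂ := if c.2.2.2 = true then 1 else 0

/-- Indicator of `w = w' = 1`. -/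
def fa_i3 (c : Cfg) : ℂ := if c.2.2.1 = true ∧ c.2.2.2 = true then 1 else 0

theorem fa_i3_eq (c : Cfg) : fa_i3 c = fa_i1 c * fa_i2 c := by
  unfold fa_i3 fa_i1 fa_i2
  by_cases h1 : c.2.2.1 = true <;> by_cases h2 : c.2.2.2 = true <;> simp [h1, h2]

/-- The sign of one gate as one minus twice a product of indicators. -/
theorem fa_czSign (A : Finset Q) (v : Q → Bool) :
    czSign A v = 1 - 2 * ∏ p ∈ A, (if v p = true then (1 : ℂ) else 0) := by
  unfold czSign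
  rw [Finset.prod_ite_zero]
  split_ifs
  · rw [Finset.prod_const_one]
    norm_num
  · rw [mul_zero, sub_zero]

/-- The sign factor of one gate in the four-fold expansion. -/
noncomputable def fa_cA (A : Finset Q) (ω : Q → Cfg) : ℂ :=
  czSign A (fun p => (ω p).2.2.1) * czSign A (fun p => (ω p).2.2.2)

theorem fa_cA_eq (A : Finset Q) (ω : Q → Cfg) :
    fa_cA A ω = 1 - 2 * ∏ p ∈ A, fa_i1 (ω p) - 2 * ∏ p ∈ A, fa_i2 (ω p)
      + 4 * ∏ p ∈ A, fa_i3 (ω p) := by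
  have e1 : czSign A (fun p => (ω p).2.2.1) = 1 - 2 * ∏ p ∈ A, fa_i1 (ω p) := fa_czSign A _
  have e2 : czSign A (fun p => (ω p).2.2.2) = 1 - 2 * ∏ p ∈ A, fa_i2 (ω p) := fa_czSign A _
  have h3 : ∏ p ∈ A, fa_i3 (ω p) = (∏ p ∈ A, fa_i1 (ω p)) * ∏ p ∈ A, fa_i2 (ω p) := by
    rw [← Finset.prod_mul_distrib]
    exact Finset.prod_congr rfl (fun p _ => fa_i3_eq _)
  unfold fa_cA
  rw [e1, e2, h3]
  ring

/-- The factor of one gate: the weights of its qubits times its sign factor. -/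
noncomputable def fa_F (κ : Q → Cfg → ℂ) (A : Finset Q) (ω : Q → Cfg) : ℂ :=
  (∏ p ∈ A, κ p (ω p)) * fa_cA A ω

theorem fa_F_eq (κ : Q → Cfg → ℂ) (A : Finset Q) (ω : Q → Cfg) :
    fa_F κ A ω = ∏ p ∈ A, κ p (ω p) - 2 * ∏ p ∈ A, (κ p (ω p) * fa_i1 (ω p))
      - 2 * ∏ p ∈ A, (κ p (ω p) * fa_i2 (ω p)) + 4 * ∏ p ∈ A, (κ p (ω p) * fa_i3 (ω p)) := by
  unfold fa_F
  rw [fa_cA_eq, Finset.prod_mul_distrib, Finset.prod_mul_distrib, Finset.prod_mul_distrib]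
  ring

theorem fa_F_local (κ : Q → Cfg → ℂ) (A : Finset Q) : LocalOn A (fa_F κ A) := by
  intro ω ω' h
  rw [fa_F_eq, fa_F_eq]
  have e0 : ∏ p ∈ A, κ p (ω p) = ∏ p ∈ A, κ p (ω' p) :=
    Finset.prod_congr rfl (fun p hp => by rw [h p hp])
  have e1 : ∏ p ∈ A, (κ p (ω p) * fa_i1 (ω p)) = ∏ p ∈ A, (κ p (ω' p) * fa_i1 (ω' p)) :=
    Finset.prod_congr rfl (fun p hp => by rw [h p hp])
  have e2 : ∏ p ∈ A, (κ p (ω p) * fa_i2 (ω p)) = ∏ p ∈ A, (κ p (ω' p) * fa_i2 (ω' p)) :=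
    Finset.prod_congr rfl (fun p hp => by rw [h p hp])
  have e3 : ∏ p ∈ A, (κ p (ω p) * fa_i3 (ω p)) = ∏ p ∈ A, (κ p (ω' p) * fa_i3 (ω' p)) :=
    Finset.prod_congr rfl (fun p hp => by rw [h p hp])
  rw [e0, e1, e2, e3]

/-- The sum of the factor of one gate. -/
theorem fa_gate_sum (κ : Q → Cfg → ℂ) (A : Finset Q) :
    (Fintype.card Cfg : ℂ) ^ A.card * ∑ ω : Q → Cfg, fa_F κ A ω
      = (Fintype.card (Q → Cfg) : ℂ) * gateSum κ A := by
  have h0 := sum_prod_sites A (fun p c => κ p c)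
  have h1 := sum_prod_sites A (fun p c => κ p c * fa_i1 c)
  have h2 := sum_prod_sites A (fun p c => κ p c * fa_i2 c)
  have h3 := sum_prod_sites A (fun p c => κ p c * fa_i3 c)
  have k0 : ∀ p, ∑ c, κ p c = K0 (κ p) := fun p => rfl
  have k1 : ∀ p, ∑ c, κ p c * fa_i1 c = K1 (κ p) := by
    intro p
    unfold K1 fa_i1
    exact Finset.sum_congr rfl (fun c _ => by rw [mul_ite, mul_one, mul_zero])
  have k2 : ∀ p, ∑ c, κ p c * fa_i2 c = K2 (κ p) := by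
    intro p
    unfold K2 fa_i2
    exact Finset.sum_congr rfl (fun c _ => by rw [mul_ite, mul_one, mul_zero])
  have k3 : ∀ p, ∑ c, κ p c * fa_i3 c = K3 (κ p) := by
    intro p
    unfold K3 fa_i3
    exact Finset.sum_congr rfl (fun c _ => by rw [mul_ite, mul_one, mul_zero])
  simp only [k0] at h0
  simp only [k1] at h1
  simp only [k2] at h2
  simp only [k3] at h3
  have hsum : ∑ ω : Q → Cfg, fa_F κ A ω
      = (∑ ω : Q → Cfg, ∏ p ∈ A, κ p (ω p))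
        - 2 * (∑ ω : Q → Cfg, ∏ p ∈ A, (κ p (ω p) * fa_i1 (ω p)))
        - 2 * (∑ ω : Q → Cfg, ∏ p ∈ A, (κ p (ω p) * fa_i2 (ω p)))
        + 4 * (∑ ω : Q → Cfg, ∏ p ∈ A, (κ p (ω p) * fa_i3 (ω p))) := by
    simp only [fa_F_eq, Finset.sum_add_distrib, Finset.sum_sub_distrib, Finset.mul_sum]
  rw [hsum]
  unfold gateSum
  linear_combination h0 - 2 * h1 - 2 * h2 + 4 * h3

/-- The summand of the four-fold expansion as a product of gate factors and a free factor. -/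
theorem fa_summand (κ : Q → Cfg → ℂ) (L : Finset (Finset Q))
    (hL : (L : Set (Finset Q)).PairwiseDisjoint id) (ω : Q → Cfg) :
    (∏ p, κ p (ω p)) *
        ∏ A ∈ L, (czSign A (fun p => (ω p).2.2.1) * czSign A (fun p => (ω p).2.2.2))
      = (∏ A ∈ L, fa_F κ A ω) * ∏ p ∈ univ \ L.biUnion id, κ p (ω p) := by
  have h1 : ∏ p, κ p (ω p)
      = (∏ p ∈ univ \ L.biUnion id, κ p (ω p)) * ∏ p ∈ L.biUnion id, κ p (ω p) :=
    (Finset.prod_sdiff (Finset.subset_univ _)).symm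
  have h2 : ∏ p ∈ L.biUnion id, κ p (ω p) = ∏ A ∈ L, ∏ p ∈ A, κ p (ω p) :=
    Finset.prod_biUnion hL
  have h3 : ∏ A ∈ L, fa_F κ A ω = (∏ A ∈ L, ∏ p ∈ A, κ p (ω p)) * ∏ A ∈ L, fa_cA A ω := by
    unfold fa_F
    rw [Finset.prod_mul_distrib]
  have h4 : ∏ A ∈ L, (czSign A (fun p => (ω p).2.2.1) * czSign A (fun p => (ω p).2.2.2))
      = ∏ A ∈ L, fa_cA A ω := rfl
  rw [h1, h2, h3, h4]
  ring

/-- The cardinality bookkeeping: the gates and the free qubits exhaust all qubits. -/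
theorem fa_card (L : Finset (Finset Q)) (hL : (L : Set (Finset Q)).PairwiseDisjoint id) :
    (∏ A ∈ L, (Fintype.card Cfg : ℂ) ^ A.card)
        * (Fintype.card Cfg : ℂ) ^ (univ \ L.biUnion id).card
      = (Fintype.card (Q → Cfg) : ℂ) := by
  have h1 : ∑ A ∈ L, A.card = (L.biUnion id).card := (Finset.card_biUnion hL).symm
  have h2 : (univ \ L.biUnion id).card + (L.biUnion id).card = Fintype.card Q := by
    rw [Finset.card_sdiff_add_card_eq_card (Finset.subset_univ _), Finset.card_univ]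
  rw [Finset.prod_pow_eq_pow_sum, ← pow_add, h1, add_comm, h2, Fintype.card_fun]
  push_cast
  rfl

/-- The four-fold expansion is the product of the contributions of the gates and of the qubits
outside all gates. -/
theorem S4_factor (κ : Q → Cfg → ℂ) (L : Finset (Finset Q))
    (hL : (L : Set (Finset Q)).PairwiseDisjoint id) :
    S4 κ L = (∏ A ∈ L, gateSum κ A) * ∏ p ∈ univ \ L.biUnion id, K0 (κ p) := by
  have hN : (Fintype.card (Q → Cfg) : ℂ) ≠ 0 := Nat.cast_ne_zero.mpr Fintype.card_ne_zero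
  -- independence of the gate factors
  have ha := indep_family (α := Cfg) L id hL (fun A => fa_F κ A) (fun A _ => fa_F_local κ A)
  -- the product of the gate factors is local on the union of the gates
  have hloc1 : LocalOn (L.biUnion id) (fun ω : Q → Cfg => ∏ A ∈ L, fa_F κ A ω) := by
    intro ω ω' h
    refine Finset.prod_congr rfl (fun A hA => fa_F_local κ A ω ω' (fun p hp => ?_))
    exact h p (Finset.mem_biUnion.mpr ⟨A, hA, hp⟩)
  have hloc2 : LocalOn (univ \ L.biUnion id)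
      (fun ω : Q → Cfg => ∏ p ∈ univ \ L.biUnion id, κ p (ω p)) := by
    intro ω ω' h
    exact Finset.prod_congr rfl (fun p hp => by rw [h p hp])
  have hb := indep_two (α := Cfg) (L.biUnion id) (univ \ L.biUnion id) Finset.disjoint_sdiff
    (fun ω : Q → Cfg => ∏ A ∈ L, fa_F κ A ω)
    (fun ω : Q → Cfg => ∏ p ∈ univ \ L.biUnion id, κ p (ω p)) hloc1 hloc2
  have hS4 : ∑ ω : Q → Cfg, (∏ A ∈ L, fa_F κ A ω) * ∏ p ∈ univ \ L.biUnion id, κ p (ω p)
      = S4 κ L := by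
    unfold S4
    exact Finset.sum_congr rfl (fun ω _ => (fa_summand κ L hL ω).symm)
  rw [hS4] at hb
  -- the one-gate sums and the free sum
  have hc : (∏ A ∈ L, (Fintype.card Cfg : ℂ) ^ A.card) * ∏ A ∈ L, ∑ ω : Q → Cfg, fa_F κ A ω
      = (Fintype.card (Q → Cfg) : ℂ) ^ L.card * ∏ A ∈ L, gateSum κ A := by
    rw [← Finset.prod_mul_distrib, Finset.prod_congr rfl (fun A _ => fa_gate_sum κ A),
      Finset.prod_mul_distrib, Finset.prod_const]
  have hd := sum_prod_sites (univ \ L.biUnion id) (fun p c => κ p c)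
  have k0 : ∀ p, ∑ c, κ p c = K0 (κ p) := fun p => rfl
  simp only [k0] at hd
  have he := fa_card L hL
  -- abbreviations
  obtain ⟨N, hNdef⟩ : ∃ N : ℂ, N = (Fintype.card (Q → Cfg) : ℂ) := ⟨_, rfl⟩
  obtain ⟨X, hX⟩ : ∃ X : ℂ, X = ∑ ω : Q → Cfg, ∏ A ∈ L, fa_F κ A ω := ⟨_, rfl⟩
  obtain ⟨Y, hY⟩ : ∃ Y : ℂ, Y = ∑ ω : Q → Cfg, ∏ p ∈ univ \ L.biUnion id, κ p (ω p) :=
    ⟨_, rfl⟩
  obtain ⟨PA, hPA⟩ : ∃ PA : ℂ, PA = ∏ A ∈ L, ∑ ω : Q → Cfg, fa_F κ A ω := ⟨_, rfl⟩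
  obtain ⟨CA, hCA⟩ : ∃ CA : ℂ, CA = ∏ A ∈ L, (Fintype.card Cfg : ℂ) ^ A.card := ⟨_, rfl⟩
  obtain ⟨cU, hcU⟩ : ∃ cU : ℂ, cU = (Fintype.card Cfg : ℂ) ^ (univ \ L.biUnion id).card :=
    ⟨_, rfl⟩
  obtain ⟨G, hG⟩ : ∃ G : ℂ, G = ∏ A ∈ L, gateSum κ A := ⟨_, rfl⟩
  obtain ⟨KU, hKU⟩ : ∃ KU : ℂ, KU = ∏ p ∈ univ \ L.biUnion id, K0 (κ p) := ⟨_, rfl⟩
  rw [← hNdef] at hN ha hb hc hd he
  rw [← hX, ← hPA] at ha
  rw [← hX, ← hY] at hb
  rw [← hCA, ← hPA, ← hG] at hc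
  rw [← hcU, ← hY, ← hKU] at hd
  rw [← hCA, ← hcU] at he
  rw [← hG, ← hKU]
  have key : N ^ (L.card + 2) * S4 κ L = N ^ (L.card + 2) * (G * KU) := by
    calc N ^ (L.card + 2) * S4 κ L = N * (N ^ L.card * (N * S4 κ L)) := by ring
      _ = N * (N ^ L.card * (X * Y)) := by rw [hb]
      _ = N * ((N ^ L.card * X) * Y) := by ring
      _ = N * ((N * PA) * Y) := by rw [ha]
      _ = (CA * cU) * ((N * PA) * Y) := by rw [he]
      _ = N * (CA * PA) * (cU * Y) := by ring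
      _ = N * (N ^ L.card * G) * (N * KU) := by rw [hc, hd]
      _ = N ^ (L.card + 2) * (G * KU) := by ring
  exact mul_left_cancel₀ (pow_ne_zero _ hN) key

end Vale.Agent.Lib.P368
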