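import Vale.Agent.Lib.P368.D2.Defs

/-!
# P368, depth two: sums over configurations of products of functions with disjoint supports
-/

namespace Vale.Agent.Lib.P368

open Finset

variable {Q : Type} [Fintype Q] [DecidableEq Q] {α : Type} [Fintype α] [DecidableEq α]

/-- `f` depends only on the coordinates in `S`. -/
def LocalOn (S : Finset Q) (f : (Q → α) → ℂ) : Prop :=
  ∀ ω ω' : Q → α, (∀ p ∈ S, ω p = ω' p) → f ω = f ω'

/-- Exchange of the coordinates outside `S` between two configurations. -/
def ind_mix (S : Finset Q) (x : (Q → α) × (Q → α)) : (Q → α) × (Q → α) :=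
  (fun p => if p ∈ S then x.1 p else x.2 p, fun p => if p ∈ S then x.2 p else x.1 p)

omit [Fintype Q] [Fintype α] [DecidableEq α] in
theorem ind_mix_involutive (S : Finset Q) :
    Function.Involutive (ind_mix (α := α) S) := by
  intro x
  apply Prod.ext
  · funext p
    by_cases hp : p ∈ S <;> simp [ind_mix, hp]
  · funext p
    by_cases hp : p ∈ S <;> simp [ind_mix, hp]

/-- Two functions depending on disjoint sets of coordinates are independent under the counting
measure. -/
theorem indep_two (S T : Finset Q) (hST : Disjoint S T) (f g : (Q → α) → ℂ)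
    (hf : LocalOn S f) (hg : LocalOn T g) :
    (∑ ω, f ω) * (∑ ω, g ω) = (Fintype.card (Q → α) : ℂ) * ∑ ω, f ω * g ω := by
  have _hdec : DecidableEq α := inferInstance
  have h1 : (∑ ω, f ω) * (∑ ω, g ω) = ∑ x : (Q → α) × (Q → α), f x.1 * g x.2 := by
    rw [Finset.sum_mul_sum]
    exact (Fintype.sum_prod_type' (fun a b => f a * g b)).symm
  have h2 : ∀ x : (Q → α) × (Q → α),
      f x.1 * g x.2 = f (ind_mix S x).1 * g (ind_mix S x).1 := by
    intro x
    have e1 : f x.1 = f (ind_mix S x).1 := by
      apply hf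
      intro p hp
      simp [ind_mix, hp]
    have e2 : g x.2 = g (ind_mix S x).1 := by
      apply hg
      intro p hp
      have hpS : p ∉ S := Finset.disjoint_right.mp hST hp
      simp [ind_mix, hpS]
    rw [e1, e2]
  have h3 : ∑ x : (Q → α) × (Q → α), f (ind_mix S x).1 * g (ind_mix S x).1
      = ∑ y : (Q → α) × (Q → α), f y.1 * g y.1 :=
    Equiv.sum_comp (ind_mix_involutive (α := α) S).toPerm (fun y => f y.1 * g y.1)
  have h4 : ∑ y : (Q → α) × (Q → α), f y.1 * g y.1
      = (Fintype.card (Q → α) : ℂ) * ∑ ω, f ω * g ω := by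
    rw [Fintype.sum_prod_type, Finset.mul_sum]
    refine Finset.sum_congr rfl fun a _ => ?_
    show (∑ _y : Q → α, f a * g a) = (Fintype.card (Q → α) : ℂ) * (f a * g a)
    rw [Finset.sum_const, Finset.card_univ, nsmul_eq_mul]
  rw [h1, Finset.sum_congr rfl (fun x _ => h2 x), h3, h4]

/-- A finite family of functions depending on pairwise disjoint sets of coordinates. -/
theorem indep_family {I : Type} [DecidableEq I] (s : Finset I) (S : I → Finset Q)
    (hS : (s : Set I).PairwiseDisjoint S) (F : I → (Q → α) → ℂ)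
    (hF : ∀ i ∈ s, LocalOn (S i) (F i)) :
    (Fintype.card (Q → α) : ℂ) ^ s.card * ∑ ω, ∏ i ∈ s, F i ω =
      (Fintype.card (Q → α) : ℂ) * ∏ i ∈ s, ∑ ω, F i ω := by
  induction s using Finset.induction_on with
  | empty =>
    rw [Finset.card_empty, pow_zero, one_mul, Finset.prod_empty, mul_one]
    simp only [Finset.prod_empty]
    rw [Finset.sum_const, Finset.card_univ, nsmul_eq_mul, mul_one]
  | insert i s his ih =>
    have hS' : (s : Set I).PairwiseDisjoint S :=
      hS.subset (by rw [Finset.coe_insert]; exact Set.subset_insert _ _)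
    have hF' : ∀ j ∈ s, LocalOn (S j) (F j) :=
      fun j hj => hF j (Finset.mem_insert_of_mem hj)
    have ih' := ih hS' hF'
    have hG : LocalOn (s.biUnion S) (fun ω => ∏ j ∈ s, F j ω) := by
      intro ω ω' h
      apply Finset.prod_congr rfl
      intro j hj
      exact hF' j hj ω ω' (fun p hp => h p (Finset.mem_biUnion.mpr ⟨j, hj, hp⟩))
    have hdisj : Disjoint (S i) (s.biUnion S) := by
      rw [Finset.disjoint_biUnion_right]
      intro j hj
      have hij : i ≠ j := by
        rintro rfl
        exact his hj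
      exact hS (Finset.mem_coe.mpr (Finset.mem_insert_self i s))
        (Finset.mem_coe.mpr (Finset.mem_insert_of_mem hj)) hij
    have h2 := indep_two (S i) (s.biUnion S) hdisj (F i) (fun ω => ∏ j ∈ s, F j ω)
      (hF i (Finset.mem_insert_self i s)) hG
    have e1 : ∀ ω : Q → α, ∏ j ∈ insert i s, F j ω = F i ω * ∏ j ∈ s, F j ω :=
      fun ω => Finset.prod_insert his
    rw [Finset.card_insert_of_notMem his, Finset.prod_insert his,
      Finset.sum_congr rfl (fun ω _ => e1 ω)]
    linear_combination (-((Fintype.card (Q → α) : ℂ) ^ s.card)) * h2 + (∑ ω, F i ω) * ih'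

/-- The sum of a product of one-site functions over the sites of `A`. -/
theorem sum_prod_sites (A : Finset Q) (h : Q → α → ℂ) :
    (Fintype.card α : ℂ) ^ A.card * ∑ ω : Q → α, ∏ p ∈ A, h p (ω p) =
      (Fintype.card (Q → α) : ℂ) * ∏ p ∈ A, ∑ c, h p c := by
  have _hdec : DecidableEq α := inferInstance
  have h1 : ∀ ω : Q → α,
      ∏ p ∈ A, h p (ω p) = ∏ p : Q, (if p ∈ A then h p (ω p) else 1) := by
    intro ω
    rw [Fintype.prod_ite_mem]
  have h2 : ∑ ω : Q → α, ∏ p : Q, (if p ∈ A then h p (ω p) else 1)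
      = ∏ p : Q, ∑ c : α, (if p ∈ A then h p c else 1) := by
    rw [Finset.prod_univ_sum, Fintype.piFinset_univ]
  have h3 : ∀ p : Q, ∑ c : α, (if p ∈ A then h p c else (1 : ℂ))
      = if p ∈ A then ∑ c, h p c else (Fintype.card α : ℂ) := by
    intro p
    by_cases hp : p ∈ A
    · simp [hp]
    · simp [hp]
  have h4 : ∏ p : Q, (if p ∈ A then ∑ c, h p c else (Fintype.card α : ℂ))
      = (∏ p ∈ A, ∑ c, h p c) * (Fintype.card α : ℂ) ^ (Fintype.card Q - A.card) := by
    rw [Finset.prod_ite, Finset.prod_const, Finset.filter_mem_eq_inter, Finset.univ_inter,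
      Finset.filter_notMem_eq_sdiff, ← Finset.compl_eq_univ_sdiff, Finset.card_compl]
  have h5 : (Fintype.card (Q → α) : ℂ)
      = (Fintype.card α : ℂ) ^ A.card * (Fintype.card α : ℂ) ^ (Fintype.card Q - A.card) := by
    rw [← pow_add, Nat.add_sub_cancel' (Finset.card_le_univ A), Fintype.card_fun]
    push_cast
    rfl
  rw [Finset.sum_congr rfl (fun ω _ => h1 ω), h2, Finset.prod_congr rfl (fun p _ => h3 p), h4, h5]
  ring

end Vale.Agent.Lib.P368
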