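import Vale.Agent.Lib.P368.D2.Defs

/-!
# P368, depth two: the second entangling layer seen from the measured qubit
-/

namespace Vale.Agent.Lib.P368

open Finset

variable {Q : Type} [Fintype Q] [DecidableEq Q]

/-- Site formula: a layer whose matrices off the qubit `q` are diagonal acts on `ψ` through the
two basis states that agree with `z` off `q`. -/
theorem me_site (v : Q → Matrix Bool Bool ℂ) (q : Q) (d : Q → Bool → ℂ)
    (hd : ∀ p, p ≠ q → ∀ c c' : Bool, v p c c' = if c = c' then d p c else 0)
    (ψ : StateVec Q) (z : Q → Bool) :
    oneQubitLayer v ψ z = (∏ p ∈ univ.erase q, d p (z p)) *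
      (v q (z q) false * ψ (Function.update z q false)
        + v q (z q) true * ψ (Function.update z q true)) := by
  rw [oneQubitLayer_apply]
  have hprod : ∀ c : Bool, (∏ p, v p (z p) (Function.update z q c p))
      = v q (z q) c * ∏ p ∈ univ.erase q, d p (z p) := by
    intro c
    rw [← Finset.mul_prod_erase univ _ (Finset.mem_univ q), Function.update_self]
    congr 1
    refine Finset.prod_congr rfl fun p hp => ?_
    have hpq : p ≠ q := Finset.ne_of_mem_erase hp
    rw [Function.update_of_ne hpq, hd p hpq, if_pos rfl]
  have hne : Function.update z q false ≠ Function.update z q true := by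
    intro h
    have h1 := congrFun h q
    simp at h1
  rw [← Finset.sum_subset
    (Finset.subset_univ {Function.update z q false, Function.update z q true})]
  · rw [Finset.sum_pair hne, hprod, hprod]
    ring
  · intro w _ hw
    have hex : ∃ p, p ≠ q ∧ w p ≠ z p := by
      by_contra hcon
      apply hw
      have hw' : w = Function.update z q (w q) := by
        funext p
        by_cases hp : p = q
        · subst hp
          simp
        · rw [Function.update_of_ne hp]
          by_contra hne'
          exact hcon ⟨p, hp, hne'⟩
      rw [hw']
      cases w q <;> simp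
    obtain ⟨p, hpq, hp⟩ := hex
    have h0 : (∏ p, v p (z p) (w p)) = 0 := by
      apply Finset.prod_eq_zero (Finset.mem_univ p)
      rw [hd p hpq, if_neg (fun h => hp h.symm)]
    rw [h0, zero_mul]

/-- The diagonal weights of the layer with the projector onto `1` on the qubits of `B`. -/
def me_dB (B : Finset Q) : Q → Bool → ℂ :=
  fun p c => if p ∈ B then (if c = true then 1 else 0) else 1

theorem me_prod_dB (B : Finset Q) (q : Q) (hq : q ∉ B) (z : Q → Bool) :
    (∏ p ∈ univ.erase q, me_dB B p (z p)) = if (∀ p ∈ B, z p = true) then 1 else 0 := by
  by_cases h : ∀ p ∈ B, z p = true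
  · rw [if_pos h]
    apply Finset.prod_eq_one
    intro p _
    unfold me_dB
    by_cases hp : p ∈ B
    · rw [if_pos hp, if_pos (h p hp)]
    · rw [if_neg hp]
  · rw [if_neg h]
    have hex : ∃ p, p ∈ B ∧ z p ≠ true := by
      by_contra hcon
      apply h
      intro p hp
      by_contra hne'
      exact hcon ⟨p, hp, hne'⟩
    obtain ⟨p, hp, hzp⟩ := hex
    have hpq : p ≠ q := fun e => hq (e ▸ hp)
    apply Finset.prod_eq_zero (Finset.mem_erase.mpr ⟨hpq, Finset.mem_univ p⟩)
    unfold me_dB
    rw [if_pos hp, if_neg hzp]

/-- Squared norm of a layer with the row matrix on `q` and diagonal matrices elsewhere. -/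
theorem me_norm_gen (v : Q → Matrix Bool Bool ℂ) (q : Q) (d : Q → Bool → ℂ)
    (hd : ∀ p, p ≠ q → ∀ c c' : Bool, v p c c' = if c = c' then d p c else 0)
    (b : Bool) (r : Bool → ℂ) (hv : v q = rowMat b r) (Θ : StateVec Q) :
    normSqSum (oneQubitLayer v Θ) = ∑ z : Q → Bool, if z q = b then
      Complex.normSq (∏ p ∈ univ.erase q, d p (z p)) *
        Complex.normSq (r false * Θ (Function.update z q false)
          + r true * Θ (Function.update z q true)) else 0 := by
  unfold normSqSum
  refine Finset.sum_congr rfl fun z _ => ?_
  rw [me_site v q d hd Θ z, hv]
  unfold rowMat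
  by_cases h : z q = b
  · rw [if_pos h, if_pos h, if_pos h, Complex.normSq_mul]
  · rw [if_neg h, if_neg h, if_neg h]
    simp

theorem me_projOne_diag (c c' : Bool) :
    projOne c c' = if c = c' then (if c = true then (1 : ℂ) else 0) else 0 := by
  unfold projOne
  cases c <;> cases c' <;> simp

/-- The layer with the row matrix on `q` and unit matrices elsewhere. -/
theorem me_norm_plain (q : Q) (b : Bool) (r : Bool → ℂ) (Θ : StateVec Q) :
    normSqSum (oneQubitLayer (fun p => if p = q then rowMat b r else 1) Θ)
      = ∑ z : Q → Bool, if z q = b then
        Complex.normSq (r false * Θ (Function.update z q false)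
          + r true * Θ (Function.update z q true)) else 0 := by
  rw [me_norm_gen (fun p => if p = q then rowMat b r else 1) q (fun _ _ => 1) ?_ b r
    (by simp) Θ]
  · refine Finset.sum_congr rfl fun z _ => ?_
    simp
  · intro p hp c c'
    simp only [if_neg hp]
    exact Matrix.one_apply

/-- The layer with the row matrix on `q` and the projector onto `1` on `B`. -/
theorem me_norm_proj (q : Q) (B : Finset Q) (hq : q ∉ B) (b : Bool) (r : Bool → ℂ)
    (Θ : StateVec Q) :
    normSqSum (oneQubitLayer
        (fun p => if p = q then rowMat b r else if p ∈ B then projOne else 1) Θ)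
      = ∑ z : Q → Bool, if z q = b then
        (if (∀ p ∈ B, z p = true) then
          Complex.normSq (r false * Θ (Function.update z q false)
            + r true * Θ (Function.update z q true)) else 0) else 0 := by
  rw [me_norm_gen (fun p => if p = q then rowMat b r else if p ∈ B then projOne else 1) q
    (me_dB B) ?_ b r (by simp) Θ]
  · refine Finset.sum_congr rfl fun z _ => ?_
    rw [me_prod_dB B q hq z]
    by_cases h : ∀ p ∈ B, z p = true
    · rw [if_pos h, if_pos h]
      simp
    · rw [if_neg h, if_neg h]
      simp
  · intro p hp c c'
    simp only [if_neg hp]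
    unfold me_dB
    by_cases hB : p ∈ B
    · rw [if_pos hB, if_pos hB]
      exact me_projOne_diag c c'
    · rw [if_neg hB, if_neg hB]
      exact Matrix.one_apply

/-- The outcome probability after a single gate on the measured qubit. -/
theorem me_meas (g : Matrix Bool Bool ℂ) (q : Q) (b : Bool) (φ : StateVec Q) :
    measProb (oneQubitLayer (singleGate q g) φ) q b
      = ∑ z : Q → Bool, if z q = b then
        Complex.normSq (g b false * φ (Function.update z q false)
          + g b true * φ (Function.update z q true)) else 0 := by
  unfold measProb
  refine Finset.sum_congr rfl fun z _ => ?_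
  by_cases h : z q = b
  · rw [if_pos h, if_pos h]
    have hs := me_site (singleGate q g) q (fun _ _ => 1)
      (by
        intro p hp c c'
        unfold singleGate
        rw [if_neg hp]
        exact Matrix.one_apply) φ z
    rw [hs]
    have hq : singleGate q g q = g := by simp [singleGate]
    rw [hq, h]
    simp
  · rw [if_neg h, if_neg h]

/-- The phase of a gate that does not contain `q` does not see the value at `q`. -/
theorem me_czSign_update (S : Finset Q) (q : Q) (hq : q ∉ S) (z : Q → Bool) (c : Bool) :
    czSign S (Function.update z q c) = czSign S z := by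
  have hiff : (∀ p ∈ S, Function.update z q c p = true) ↔ (∀ p ∈ S, z p = true) := by
    constructor
    · intro h p hp
      have hpq : p ≠ q := fun e => hq (e ▸ hp)
      have h1 := h p hp
      rwa [Function.update_of_ne hpq] at h1
    · intro h p hp
      have hpq : p ≠ q := fun e => hq (e ▸ hp)
      rw [Function.update_of_ne hpq]
      exact h p hp
  unfold czSign
  exact if_congr hiff rfl rfl

theorem me_czSign_false (A : Finset Q) (q : Q) (hq : q ∈ A) (z : Q → Bool) :
    czSign A (Function.update z q false) = 1 := by
  unfold czSign
  rw [if_neg]
  intro h
  have h1 := h q hq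
  simp at h1

theorem me_czSign_true (A : Finset Q) (q : Q) (hq : q ∈ A) (z : Q → Bool) :
    czSign A (Function.update z q true)
      = if (∀ p ∈ A.erase q, z p = true) then -1 else 1 := by
  have hiff : (∀ p ∈ A, Function.update z q true p = true) ↔ (∀ p ∈ A.erase q, z p = true) := by
    constructor
    · intro h p hp
      have hpq : p ≠ q := Finset.ne_of_mem_erase hp
      have h1 := h p (Finset.mem_of_mem_erase hp)
      rwa [Function.update_of_ne hpq] at h1
    · intro h p hp
      by_cases hpq : p = q
      · subst hpq
        simp
      · rw [Function.update_of_ne hpq]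
        exact h p (Finset.mem_erase.mpr ⟨hpq, hp⟩)
  unfold czSign
  exact if_congr hiff rfl rfl

theorem me_normSq_prod_czSign (L : Finset (Finset Q)) (z : Q → Bool) :
    Complex.normSq (∏ S ∈ L, czSign S z) = 1 := by
  rw [map_prod]
  exact Finset.prod_eq_one fun S _ => normSq_czSign S z

/-- The probability of the outcome `b` on qubit `q` after a layer `L2` of multi-controlled `Z`
gates and a gate `g` on `q` is a signed sum of three squared norms of `Θ` acted on by layers of
one-qubit matrices: row `b` of `g` (or that row with its second entry negated) on `q`, and the
projector onto `1` on the other qubits `B'` of the gate of `L2` that contains `q`. -/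
theorem measProb_depth_two (L2 : Finset (Finset Q))
    (hL : (L2 : Set (Finset Q)).PairwiseDisjoint id) (g : Matrix Bool Bool ℂ) (q : Q) (b : Bool) :
    ∃ (B' : Finset Q) (r' : Bool → ℂ),
      (∀ c, Complex.normSq (r' c) = Complex.normSq (g b c)) ∧
      ∀ Θ : StateVec Q,
        measProb (oneQubitLayer (singleGate q g) (czLayer L2 Θ)) q b =
          normSqSum (oneQubitLayer (fun p => if p = q then rowMat b (g b) else 1) Θ)
          - normSqSum (oneQubitLayer
              (fun p => if p = q then rowMat b (g b) else if p ∈ B' then projOne else 1) Θ)
          + normSqSum (oneQubitLayer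
              (fun p => if p = q then rowMat b r' else if p ∈ B' then projOne else 1) Θ) := by
  by_cases hex : ∃ A ∈ L2, q ∈ A
  · obtain ⟨A, hA, hqA⟩ := hex
    refine ⟨A.erase q, fun c => if c = true then - g b true else g b false, ?_, ?_⟩
    · intro c
      cases c
      · simp
      · simp
    · intro Θ
      have hqB : q ∉ A.erase q := Finset.notMem_erase q A
      rw [me_meas, me_norm_plain, me_norm_proj q (A.erase q) hqB, me_norm_proj q (A.erase q) hqB,
        ← Finset.sum_sub_distrib, ← Finset.sum_add_distrib]
      refine Finset.sum_congr rfl fun z _ => ?_
      by_cases hz : z q = b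
      · simp only [if_pos hz]
        -- the phases
        have hother : ∀ S ∈ L2.erase A, q ∉ S := by
          intro S hS hqS
          have hSA : S ≠ A := Finset.ne_of_mem_erase hS
          have hdisj : Disjoint S A := hL (Finset.mem_coe.mpr (Finset.mem_of_mem_erase hS))
            (Finset.mem_coe.mpr hA) hSA
          exact Finset.disjoint_left.mp hdisj hqS hqA
        have hP : ∀ c : Bool, (∏ S ∈ L2, czSign S (Function.update z q c))
            = czSign A (Function.update z q c) * ∏ S ∈ L2.erase A, czSign S z := by
          intro c
          rw [← Finset.mul_prod_erase L2 _ hA]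
          congr 1
          exact Finset.prod_congr rfl fun S hS => me_czSign_update S q (hother S hS) z c
        have hD := me_normSq_prod_czSign (L2.erase A) z
        unfold czLayer
        rw [hP false, hP true, me_czSign_false A q hqA z, me_czSign_true A q hqA z]
        by_cases hone : ∀ p ∈ A.erase q, z p = true
        · simp only [if_pos hone]
          have e : g b false * (1 * (∏ S ∈ L2.erase A, czSign S z) * Θ (Function.update z q false))
              + g b true * (-1 * (∏ S ∈ L2.erase A, czSign S z) * Θ (Function.update z q true))
              = (∏ S ∈ L2.erase A, czSign S z) *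
                (g b false * Θ (Function.update z q false)
                  + - g b true * Θ (Function.update z q true)) := by
            ring
          rw [e, Complex.normSq_mul, hD]
          simp
        · simp only [if_neg hone]
          have e : g b false * (1 * (∏ S ∈ L2.erase A, czSign S z) * Θ (Function.update z q false))
              + g b true * (1 * (∏ S ∈ L2.erase A, czSign S z) * Θ (Function.update z q true))
              = (∏ S ∈ L2.erase A, czSign S z) *
                (g b false * Θ (Function.update z q false)
                  + g b true * Θ (Function.update z q true)) := by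
            ring
          rw [e, Complex.normSq_mul, hD]
          simp
      · simp only [if_neg hz]
        simp
  · refine ⟨∅, g b, fun c => rfl, ?_⟩
    intro Θ
    have hqB : q ∉ (∅ : Finset Q) := Finset.notMem_empty q
    rw [me_meas, me_norm_plain, me_norm_proj q ∅ hqB, ← Finset.sum_sub_distrib,
      ← Finset.sum_add_distrib]
    refine Finset.sum_congr rfl fun z _ => ?_
    by_cases hz : z q = b
    · simp only [if_pos hz]
      have hother : ∀ S ∈ L2, q ∉ S := fun S hS hqS => hex ⟨S, hS, hqS⟩
      have hP : ∀ c : Bool, (∏ S ∈ L2, czSign S (Function.update z q c))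
          = ∏ S ∈ L2, czSign S z := by
        intro c
        exact Finset.prod_congr rfl fun S hS => me_czSign_update S q (hother S hS) z c
      have hD := me_normSq_prod_czSign L2 z
      unfold czLayer
      rw [hP false, hP true]
      have e : g b false * ((∏ S ∈ L2, czSign S z) * Θ (Function.update z q false))
          + g b true * ((∏ S ∈ L2, czSign S z) * Θ (Function.update z q true))
          = (∏ S ∈ L2, czSign S z) *
            (g b false * Θ (Function.update z q false)
              + g b true * Θ (Function.update z q true)) := by
        ring
      rw [e, Complex.normSq_mul, hD]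
      simp
    · simp only [if_neg hz]
      simp

end Vale.Agent.Lib.P368
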