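import Vale.Agent.Lib.P368.D2.Defs

/-!
# P368, depth two: from sums over inputs to sums over basis states of the register
-/

namespace Vale.Agent.Lib.P368

open Finset

variable {Q : Type} [Fintype Q] [DecidableEq Q]

omit [Fintype Q] in
theorem ri_inTau_true {n : ℕ} (inp : Fin n ↪ Q) (p : Q) :
    inTau inp p = true ↔ ∃ j, inp j = p := by
  unfold inTau
  exact decide_eq_true_iff

omit [Fintype Q] [DecidableEq Q] in
theorem ri_extend_inp {n : ℕ} (inp : Fin n ↪ Q) (x : Fin n → Bool) (j : Fin n) :
    Function.extend inp x (fun _ => false) (inp j) = x j :=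
  inp.injective.extend_apply x _ j

omit [Fintype Q] [DecidableEq Q] in
theorem ri_extend_out {n : ℕ} (inp : Fin n ↪ Q) (x : Fin n → Bool) (p : Q)
    (hp : ¬ ∃ j, inp j = p) : Function.extend inp x (fun _ => false) p = false :=
  Function.extend_apply' x _ p hp

omit [Fintype Q] [DecidableEq Q] in
theorem ri_extend_inj {n : ℕ} (inp : Fin n ↪ Q) :
    Function.Injective (fun x : Fin n → Bool => Function.extend inp x (fun _ => false)) := by
  intro x x' h
  funext j
  have h1 := congrFun h (inp j)
  simp only [ri_extend_inp] at h1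
  exact h1

theorem ri_weight {n : ℕ} (inp : Fin n ↪ Q) (x : Fin n → Bool) :
    ∏ p, wt (inTau inp p) (Function.extend inp x (fun _ => false) p) = sgn x := by
  rw [← Finset.prod_mul_prod_compl (univ.map inp), Finset.prod_map]
  have h1 : ∀ j ∈ (univ : Finset (Fin n)),
      wt (inTau inp (inp j)) (Function.extend inp x (fun _ => false) (inp j))
        = (if x j = true then (-1 : ℝ) else 1) := by
    intro j _
    rw [ri_extend_inp]
    have ht : inTau inp (inp j) = true := (ri_inTau_true inp (inp j)).mpr ⟨j, rfl⟩
    rw [ht]
    unfold wt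
    simp
  rw [Finset.prod_congr rfl h1]
  have h2 : ∀ p ∈ (univ.map inp)ᶜ,
      wt (inTau inp p) (Function.extend inp x (fun _ => false) p) = 1 := by
    intro p hp
    rw [Finset.mem_compl, Finset.mem_map] at hp
    have hne : ¬ ∃ j, inp j = p := by
      rintro ⟨j, hj⟩
      exact hp ⟨j, Finset.mem_univ j, hj⟩
    rw [ri_extend_out inp x p hne]
    have ht : inTau inp p = false := by
      rw [← Bool.not_eq_true, ri_inTau_true]
      exact hne
    rw [ht]
    unfold wt
    simp
  rw [Finset.prod_eq_one h2, mul_one]
  rfl

theorem sum_sgn_extend {n : ℕ} (inp : Fin n ↪ Q) (G : (Q → Bool) → ℝ) :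
    ∑ x : Fin n → Bool, sgn x * G (Function.extend inp x fun _ => false) =
      ∑ y : Q → Bool, (∏ p, wt (inTau inp p) (y p)) * G y := by
  classical
  have hinj := ri_extend_inj inp
  have hsub : ∑ y ∈ (univ.image
        (fun x : Fin n → Bool => Function.extend inp x (fun _ => false))),
        (∏ p, wt (inTau inp p) (y p)) * G y
      = ∑ y : Q → Bool, (∏ p, wt (inTau inp p) (y p)) * G y := by
    apply Finset.sum_subset (Finset.subset_univ _)
    intro y _ hy
    have hex : ∃ p, (¬ ∃ j, inp j = p) ∧ y p = true := by
      by_contra hcon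
      apply hy
      rw [Finset.mem_image]
      refine ⟨fun j => y (inp j), Finset.mem_univ _, ?_⟩
      funext p
      by_cases hp : ∃ j, inp j = p
      · obtain ⟨j, rfl⟩ := hp
        exact ri_extend_inp inp _ j
      · have h1 : Function.extend inp (fun j => y (inp j)) (fun _ => false) p = false :=
          ri_extend_out inp _ p hp
        rw [h1]
        cases hyp : y p with
        | false => rfl
        | true => exact absurd ⟨p, hp, hyp⟩ hcon
    obtain ⟨p, hp, hyp⟩ := hex
    have hz : ∏ p, wt (inTau inp p) (y p) = 0 := by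
      apply Finset.prod_eq_zero (Finset.mem_univ p)
      have ht : inTau inp p = false := by
        rw [← Bool.not_eq_true, ri_inTau_true]
        exact hp
      rw [ht, hyp]
      unfold wt
      simp
    rw [hz, zero_mul]
  rw [← hsub, Finset.sum_image (fun x _ x' _ h => hinj h)]
  apply Finset.sum_congr rfl
  intro x _
  rw [ri_weight]

theorem card_inTau {n : ℕ} (inp : Fin n ↪ Q) :
    (univ.filter fun p => inTau inp p = true).card = n := by
  have h : (univ.filter fun p => inTau inp p = true) = univ.map inp := by
    ext p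
    rw [Finset.mem_filter, Finset.mem_map, ri_inTau_true]
    constructor
    · rintro ⟨_, j, hj⟩
      exact ⟨j, Finset.mem_univ j, hj⟩
    · rintro ⟨j, _, hj⟩
      exact ⟨Finset.mem_univ p, j, hj⟩
  rw [h, Finset.card_map, Finset.card_univ, Fintype.card_fin]

end Vale.Agent.Lib.P368
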