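import Vale.Agent.Lib.P368.D2.Core
import Vale.Agent.Lib.P368.D2.Meas
import Vale.Agent.Lib.P368.D2.Reindex

/-!
# P368, depth two: the signed sum of the outcome probabilities of a circuit of entangling
depth at most two
-/

namespace Vale.Agent.Lib.P368

open Finset

variable {Q : Type} [Fintype Q] [DecidableEq Q]

theorem czLayer_empty (ψ : StateVec Q) : czLayer (∅ : Finset (Finset Q)) ψ = ψ := by
  funext z
  simp [czLayer]

/-- The signed sum over all inputs of the probability of the outcome `b` on qubit `q`, for two
layers of multi-controlled `Z` gates with one-qubit unitaries around them. -/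
theorem signed_sum_two {n : ℕ} (inp : Fin n ↪ Q) (first v w2 last : Q → Matrix Bool Bool ℂ)
    (L1 L2 : Finset (Finset Q))
    (hfirst : ∀ p, first p ∈ Matrix.unitaryGroup Bool ℂ)
    (hv : ∀ p, v p ∈ Matrix.unitaryGroup Bool ℂ)
    (hw2 : ∀ p, w2 p ∈ Matrix.unitaryGroup Bool ℂ)
    (hlast : ∀ p, last p ∈ Matrix.unitaryGroup Bool ℂ)
    (hL1 : (L1 : Set (Finset Q)).PairwiseDisjoint id)
    (hL2 : (L2 : Set (Finset Q)).PairwiseDisjoint id) (q : Q) (b : Bool) :
    |∑ x : Fin n → Bool, sgn x * measProb (oneQubitLayer last (oneQubitLayer w2 (czLayer L2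
      (oneQubitLayer v (czLayer L1 (oneQubitLayer first
        (basisState (Function.extend inp x fun _ => false)))))))) q b| ≤
      3 * (12 / 7 : ℝ) ^ n := by
  have hgU : last q * w2 q ∈ Matrix.unitaryGroup Bool ℂ := mul_mem (hlast q) (hw2 q)
  obtain ⟨B', r', hr', hmeas⟩ := measProb_depth_two L2 hL2 (last q * w2 q) q b
  have hrow : Complex.normSq ((last q * w2 q) b false) +
      Complex.normSq ((last q * w2 q) b true) = 1 := unitary_row _ hgU b
  have hc0 : ∀ p, IsContr ((if p = q then rowMat b ((last q * w2 q) b) else 1) * v p) := by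
    intro p
    refine isContr_mul _ _ ?_ (isContr_of_unitary _ (hv p))
    split_ifs
    · exact isContr_rowMat b _ (le_of_eq hrow)
    · exact isContr_one
  have hc1 : ∀ p, IsContr ((if p = q then rowMat b ((last q * w2 q) b) else
      if p ∈ B' then projOne else 1) * v p) := by
    intro p
    refine isContr_mul _ _ ?_ (isContr_of_unitary _ (hv p))
    split_ifs
    · exact isContr_rowMat b _ (le_of_eq hrow)
    · exact isContr_projOne
    · exact isContr_one
  have hc2 : ∀ p, IsContr ((if p = q then rowMat b r' else
      if p ∈ B' then projOne else 1) * v p) := by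
    intro p
    refine isContr_mul _ _ ?_ (isContr_of_unitary _ (hv p))
    split_ifs
    · refine isContr_rowMat b _ (le_of_eq ?_)
      rw [hr' false, hr' true]
      exact hrow
    · exact isContr_projOne
    · exact isContr_one
  have hterm : ∀ y : Q → Bool, measProb (oneQubitLayer last (oneQubitLayer w2 (czLayer L2
      (oneQubitLayer v (czLayer L1 (oneQubitLayer first (basisState y))))))) q b =
      outNorm (fun p => (if p = q then rowMat b ((last q * w2 q) b) else 1) * v p) L1 first y
        - outNorm (fun p => (if p = q then rowMat b ((last q * w2 q) b) else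
            if p ∈ B' then projOne else 1) * v p) L1 first y
        + outNorm (fun p => (if p = q then rowMat b r' else
            if p ∈ B' then projOne else 1) * v p) L1 first y := by
    intro y
    rw [oneQubitLayer_comp last w2]
    have h1 := measProb_oneQubitLayer_local (fun p => last p * w2 p)
      (fun p => mul_mem (hlast p) (hw2 p))
      (czLayer L2 (oneQubitLayer v (czLayer L1 (oneQubitLayer first (basisState y))))) q b
    rw [h1]
    have h2 := hmeas (oneQubitLayer v (czLayer L1 (oneQubitLayer first (basisState y))))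
    rw [h2]
    unfold outNorm
    rw [oneQubitLayer_comp, oneQubitLayer_comp, oneQubitLayer_comp]
  have hsum : (∑ x : Fin n → Bool, sgn x * measProb (oneQubitLayer last (oneQubitLayer w2
      (czLayer L2 (oneQubitLayer v (czLayer L1 (oneQubitLayer first
        (basisState (Function.extend inp x fun _ => false)))))))) q b) =
      sigSum (inTau inp) (fun p => (if p = q then rowMat b ((last q * w2 q) b) else 1) * v p)
          L1 first
        - sigSum (inTau inp) (fun p => (if p = q then rowMat b ((last q * w2 q) b) else
            if p ∈ B' then projOne else 1) * v p) L1 first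
        + sigSum (inTau inp) (fun p => (if p = q then rowMat b r' else
            if p ∈ B' then projOne else 1) * v p) L1 first := by
    unfold sigSum
    rw [← sum_sgn_extend inp, ← sum_sgn_extend inp, ← sum_sgn_extend inp,
      ← Finset.sum_sub_distrib, ← Finset.sum_add_distrib]
    refine Finset.sum_congr rfl fun x _ => ?_
    rw [hterm]
    ring
  rw [hsum]
  have b0 := abs_sigSum_le (inTau inp) _ L1 first hL1 hc0 hfirst
  have b1 := abs_sigSum_le (inTau inp) _ L1 first hL1 hc1 hfirst
  have b2 := abs_sigSum_le (inTau inp) _ L1 first hL1 hc2 hfirst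
  rw [card_inTau] at b0 b1 b2
  have t1 := abs_add_le
    (sigSum (inTau inp) (fun p => (if p = q then rowMat b ((last q * w2 q) b) else 1) * v p)
          L1 first
        - sigSum (inTau inp) (fun p => (if p = q then rowMat b ((last q * w2 q) b) else
            if p ∈ B' then projOne else 1) * v p) L1 first)
    (sigSum (inTau inp) (fun p => (if p = q then rowMat b r' else
            if p ∈ B' then projOne else 1) * v p) L1 first)
  have t2 := abs_sub
    (sigSum (inTau inp) (fun p => (if p = q then rowMat b ((last q * w2 q) b) else 1) * v p)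
          L1 first)
    (sigSum (inTau inp) (fun p => (if p = q then rowMat b ((last q * w2 q) b) else
            if p ∈ B' then projOne else 1) * v p) L1 first)
  linarith

/-- At most two rounds can be written as exactly two rounds. -/
theorem runSteps_le_two (steps : List (Finset (Finset Q) × (Q → Matrix Bool Bool ℂ)))
    (hlen : steps.length ≤ 2)
    (hwf : ∀ s ∈ steps, (s.1 : Set (Finset Q)).PairwiseDisjoint id ∧
      ∀ p, s.2 p ∈ Matrix.unitaryGroup Bool ℂ) :
    ∃ (L1 L2 : Finset (Finset Q)) (v w2 : Q → Matrix Bool Bool ℂ),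
      (L1 : Set (Finset Q)).PairwiseDisjoint id ∧ (L2 : Set (Finset Q)).PairwiseDisjoint id ∧
      (∀ p, v p ∈ Matrix.unitaryGroup Bool ℂ) ∧ (∀ p, w2 p ∈ Matrix.unitaryGroup Bool ℂ) ∧
      ∀ ψ : StateVec Q, runSteps steps ψ =
        oneQubitLayer w2 (czLayer L2 (oneQubitLayer v (czLayer L1 ψ))) := by
  have hempty : ((∅ : Finset (Finset Q)) : Set (Finset Q)).PairwiseDisjoint id := by
    simp
  match steps, hlen, hwf with
  | [], _, _ =>
    refine ⟨∅, ∅, fun _ => 1, fun _ => 1, hempty, hempty, fun _ => one_mem _,
      fun _ => one_mem _, fun ψ => ?_⟩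
    rw [czLayer_empty, oneQubitLayer_one, czLayer_empty, oneQubitLayer_one]
    rfl
  | [s], _, hwf =>
    have hs := hwf s List.mem_cons_self
    refine ⟨s.1, ∅, s.2, fun _ => 1, hs.1, hempty, hs.2, fun _ => one_mem _, fun ψ => ?_⟩
    rw [czLayer_empty, oneQubitLayer_one]
    rfl
  | [s1, s2], _, hwf =>
    have hs1 := hwf s1 List.mem_cons_self
    have hs2 := hwf s2 (List.mem_cons_of_mem _ List.mem_cons_self)
    exact ⟨s1.1, s2.1, s1.2, s2.2, hs1.1, hs2.1, hs1.2, hs2.2, fun ψ => rfl⟩
  | _ :: _ :: _ :: _, hlen, _ =>
    simp at hlen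

/-- The signed sum of the output probabilities of a circuit of entangling depth at most two. -/
theorem signed_sum_depth_two {n : ℕ} (inp : Fin n ↪ Q) (C : Circuit Q) (hC : C.WellFormed)
    (hd : C.steps.length ≤ 2) (q : Q) (b : Bool) :
    |∑ x : Fin n → Bool, sgn x * C.outProb inp q x b| ≤ 3 * (12 / 7 : ℝ) ^ n := by
  obtain ⟨L1, L2, v, w2, hL1, hL2, hv, hw2, hrun⟩ := runSteps_le_two C.steps hd hC.2.2
  unfold Circuit.outProb Circuit.run
  simp only [hrun]
  exact signed_sum_two inp C.first v w2 C.last L1 L2 hC.1 hv hw2 hC.2.1 hL1 hL2 q b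

end Vale.Agent.Lib.P368
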